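import Mathlib

/-!
Local analytic solution at the origin of the reduced profile system

`2 p' = p (r - p)`,
`2 s r' = -(k+2) r + p + v/a + s r (p + v/a - k r)`,
`2 s v' = E p - k v + s (E r p - (k-1) r v + v^2)`,

with `E = k + 2` and `a = (k+2)/(k+3)`, normalised by `p 0 = 1`.
-/

open scoped BigOperators

namespace Vale.Agent.P252

/-- Cauchy product coefficient. -/
def conv (f g : ℕ → ℝ) (n : ℕ) : ℝ := ∑ i ∈ Finset.range (n + 1), f i * g (n - i)

/-- Coefficients at index zero. -/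
noncomputable def coeff0 (k : ℝ) : ℝ × ℝ × ℝ :=
  (1, (1 + (k + 3) / (k + 2) * ((k + 2) / k)) / (k + 2), (k + 2) / k)

/-- The new coefficient `p (N+1)`. -/
noncomputable def stepP (f : ℕ → ℝ × ℝ × ℝ) (N : ℕ) : ℝ :=
  conv (fun i => (f i).1) (fun i => (f i).2.1 - (f i).1) N / (2 * ((N : ℝ) + 1))

/-- The new coefficient `v (N+1)`. -/
noncomputable def stepV (k : ℝ) (f : ℕ → ℝ × ℝ × ℝ) (N : ℕ) : ℝ :=
  ((k + 2) * stepP f N + ((k + 2) * conv (fun i => (f i).2.1) (fun i => (f i).1) N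
      - (k - 1) * conv (fun i => (f i).2.1) (fun i => (f i).2.2) N
      + conv (fun i => (f i).2.2) (fun i => (f i).2.2) N)) / (2 * ((N : ℝ) + 1) + k)

/-- The new coefficient `r (N+1)`. -/
noncomputable def stepR (k : ℝ) (f : ℕ → ℝ × ℝ × ℝ) (N : ℕ) : ℝ :=
  (stepP f N + (k + 3) / (k + 2) * stepV k f N
    + (conv (fun i => (f i).2.1) (fun i => (f i).1) N
      + (k + 3) / (k + 2) * conv (fun i => (f i).2.1) (fun i => (f i).2.2) N
      - k * conv (fun i => (f i).2.1) (fun i => (f i).2.1) N)) / (2 * ((N : ℝ) + 1) + k + 2)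

/-- Coefficient prefix. -/
noncomputable def pre (k : ℝ) : ℕ → ℕ → ℝ × ℝ × ℝ
  | 0 => fun _ => coeff0 k
  | N + 1 => fun i =>
      if i ≤ N then pre k N i
      else (stepP (pre k N) N, stepR k (pre k N) N, stepV k (pre k N) N)

/-- Coefficients of the series solution. -/
noncomputable def cf (k : ℝ) (n : ℕ) : ℝ × ℝ × ℝ := pre k n n

lemma pre_eq (k : ℝ) : ∀ N i : ℕ, i ≤ N → pre k N i = cf k i := by
  intro N
  induction N with
  | zero =>
    intro i hi
    obtain rfl : i = 0 := by omega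
    rfl
  | succ N ih =>
    intro i hi
    rcases Nat.lt_or_ge i (N + 1) with h | h
    · show (if i ≤ N then pre k N i else _) = _
      rw [if_pos (by omega), ih i (by omega)]
    · obtain rfl : i = N + 1 := by omega
      rfl

lemma conv_congr {f g f' g' : ℕ → ℝ} {n : ℕ} (hf : ∀ i ≤ n, f i = f' i)
    (hg : ∀ i ≤ n, g i = g' i) : conv f g n = conv f' g' n :=
  Finset.sum_congr rfl fun i hi => by
    have := Finset.mem_range.1 hi
    rw [hf i (by omega), hg (n - i) (by omega)]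

lemma cf_succ (k : ℝ) (N : ℕ) :
    cf k (N + 1) = (stepP (cf k) N, stepR k (cf k) N, stepV k (cf k) N) := by
  have h : ∀ i ≤ N, pre k N i = cf k i := fun i hi => pre_eq k N i hi
  have hP : stepP (pre k N) N = stepP (cf k) N := by
    unfold stepP
    rw [conv_congr (fun i hi => by rw [h i hi]) (fun i hi => by rw [h i hi])]
  have hc : ∀ (F G : ℝ × ℝ × ℝ → ℝ),
      conv (fun i => F (pre k N i)) (fun i => G (pre k N i)) N
        = conv (fun i => F (cf k i)) (fun i => G (cf k i)) N := fun F G =>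
    conv_congr (fun i hi => by rw [h i hi]) (fun i hi => by rw [h i hi])
  have hV : stepV k (pre k N) N = stepV k (cf k) N := by
    unfold stepV
    rw [hP, hc (fun t => t.2.1) (fun t => t.1), hc (fun t => t.2.1) (fun t => t.2.2),
      hc (fun t => t.2.2) (fun t => t.2.2)]
  have hR : stepR k (pre k N) N = stepR k (cf k) N := by
    unfold stepR
    rw [hP, hV, hc (fun t => t.2.1) (fun t => t.1), hc (fun t => t.2.1) (fun t => t.2.2),
      hc (fun t => t.2.1) (fun t => t.2.1)]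
  show (if N + 1 ≤ N then _ else _) = _
  rw [if_neg (by omega), hP, hR, hV]

/-- The `p` coefficients. -/
noncomputable def cp (k : ℝ) (n : ℕ) : ℝ := (cf k n).1
/-- The `r` coefficients. -/
noncomputable def cr (k : ℝ) (n : ℕ) : ℝ := (cf k n).2.1
/-- The `v` coefficients. -/
noncomputable def cv (k : ℝ) (n : ℕ) : ℝ := (cf k n).2.2

lemma conv_bound {f g : ℕ → ℝ} {A B ρ : ℝ} {n : ℕ} (hA : 0 ≤ A) (hρ : 0 ≤ ρ)
    (hf : ∀ i ≤ n, |f i| ≤ A * ρ ^ i) (hg : ∀ i ≤ n, |g i| ≤ B * ρ ^ i) :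
    |conv f g n| ≤ ((n : ℝ) + 1) * (A * B * ρ ^ n) := by
  refine (Finset.abs_sum_le_sum_abs _ _).trans ?_
  refine (Finset.sum_le_sum (g := fun _ => A * B * ρ ^ n) fun i hi => ?_).trans (le_of_eq ?_)
  · have hi' := Finset.mem_range.1 hi
    rw [abs_mul]
    calc |f i| * |g (n - i)| ≤ (A * ρ ^ i) * (B * ρ ^ (n - i)) :=
          mul_le_mul (hf i (by omega)) (hg _ (by omega)) (abs_nonneg _) (by positivity)
      _ = A * B * (ρ ^ i * ρ ^ (n - i)) := by ring
      _ = A * B * ρ ^ n := by rw [← pow_add, Nat.add_sub_cancel' (by omega)]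
  · rw [Finset.sum_const, Finset.card_range, nsmul_eq_mul]; push_cast; ring

lemma cf_bound {k : ℝ} (hk : 9 ≤ k) : ∀ n : ℕ,
    |cp k n| ≤ (40 * (k + 2)) ^ n ∧ |cr k n| ≤ 3 * (40 * (k + 2)) ^ n ∧
      |cv k n| ≤ 3 * (40 * (k + 2)) ^ n := by
  set ρ := 40 * (k + 2) with hρ
  have hρ0 : 0 ≤ ρ := by linarith
  have hq : (k + 3) / (k + 2) ≤ 12 / 11 := by
    rw [div_le_div_iff₀ (by linarith) (by norm_num)]; linarith
  have hq0 : 0 ≤ (k + 3) / (k + 2) := by positivity
  intro n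
  induction n using Nat.strong_induction_on with
  | _ n ih =>
  rcases n with _ | N
  · have h1 : (k + 2) / k ≤ 11 / 9 := by
      rw [div_le_div_iff₀ (by linarith) (by norm_num)]; linarith
    have h2 : 0 ≤ (k + 2) / k := by positivity
    refine ⟨by simp [cp, cf, pre, coeff0], ?_, ?_⟩
    · simp only [cr, cf, pre, coeff0, pow_zero, mul_one]
      rw [abs_of_nonneg (by positivity), div_le_iff₀ (by linarith)]
      nlinarith [mul_le_mul hq h1 h2 (by norm_num)]
    · simp only [cv, cf, pre, coeff0, pow_zero, mul_one]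
      rw [abs_of_nonneg h2]; linarith
  · have hp : ∀ i ≤ N, |cp k i| ≤ 1 * ρ ^ i := fun i hi => by
      rw [one_mul]; exact (ih i (by omega)).1
    have hr : ∀ i ≤ N, |cr k i| ≤ 3 * ρ ^ i := fun i hi => (ih i (by omega)).2.1
    have hv : ∀ i ≤ N, |cv k i| ≤ 3 * ρ ^ i := fun i hi => (ih i (by omega)).2.2
    have hd : ∀ i ≤ N, |cr k i - cp k i| ≤ 4 * ρ ^ i := fun i hi => by
      have := abs_sub (cr k i) (cp k i)
      linarith [hp i hi, hr i hi]
    set M := ((N : ℝ) + 1) * ρ ^ N with hM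
    have hM0 : 0 ≤ M := by positivity
    have c1 : |conv (cp k) (fun i => cr k i - cp k i) N| ≤ 4 * M :=
      (conv_bound zero_le_one hρ0 hp hd).trans (le_of_eq (by rw [hM]; ring))
    have c2 : |conv (cr k) (cp k) N| ≤ 3 * M :=
      (conv_bound (by norm_num) hρ0 hr hp).trans (le_of_eq (by rw [hM]; ring))
    have c3 : |conv (cr k) (cv k) N| ≤ 9 * M :=
      (conv_bound (by norm_num) hρ0 hr hv).trans (le_of_eq (by rw [hM]; ring))
    have c4 : |conv (cv k) (cv k) N| ≤ 9 * M :=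
      (conv_bound (by norm_num) hρ0 hv hv).trans (le_of_eq (by rw [hM]; ring))
    have c5 : |conv (cr k) (cr k) N| ≤ 9 * M :=
      (conv_bound (by norm_num) hρ0 hr hr).trans (le_of_eq (by rw [hM]; ring))
    have hN1 : (0 : ℝ) < (N : ℝ) + 1 := by positivity
    set X := ρ ^ (N + 1) with hX
    have hX0 : 0 ≤ X := by positivity
    have hMX : M * (40 * (k + 2)) = ((N : ℝ) + 1) * X := by
      rw [hX, pow_succ, hM, ← hρ]; ring
    have hP : |stepP (cf k) N| ≤ X := by
      have e : stepP (cf k) N = conv (cp k) (fun i => cr k i - cp k i) N / (2 * ((N : ℝ) + 1)) := rfl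
      rw [e, abs_div, abs_of_pos (by positivity : (0 : ℝ) < 2 * ((N : ℝ) + 1)),
        div_le_iff₀ (by positivity)]
      nlinarith [c1]
    have hV : |stepV k (cf k) N| ≤ 3 * X := by
      have e : stepV k (cf k) N = ((k + 2) * stepP (cf k) N + ((k + 2) * conv (cr k) (cp k) N
          - (k - 1) * conv (cr k) (cv k) N + conv (cv k) (cv k) N))
          / (2 * ((N : ℝ) + 1) + k) := rfl
      rw [e, abs_div, abs_of_pos (by linarith : (0 : ℝ) < 2 * ((N : ℝ) + 1) + k),
        div_le_iff₀ (by linarith)]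
      have t1 := abs_add_le ((k + 2) * stepP (cf k) N) ((k + 2) * conv (cr k) (cp k) N
          - (k - 1) * conv (cr k) (cv k) N + conv (cv k) (cv k) N)
      have t2 := abs_add_le ((k + 2) * conv (cr k) (cp k) N - (k - 1) * conv (cr k) (cv k) N)
        (conv (cv k) (cv k) N)
      have t3 := abs_sub ((k + 2) * conv (cr k) (cp k) N) ((k - 1) * conv (cr k) (cv k) N)
      rw [abs_mul, abs_mul, abs_of_nonneg (by linarith : 0 ≤ k + 2),
        abs_of_nonneg (by linarith : 0 ≤ k - 1)] at t3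
      rw [abs_mul, abs_of_nonneg (by linarith : 0 ≤ k + 2)] at t1
      have b1 : (k + 2) * |stepP (cf k) N| ≤ (k + 2) * X :=
        mul_le_mul_of_nonneg_left hP (by linarith)
      have b2 : (k + 2) * |conv (cr k) (cp k) N| ≤ (k + 2) * (3 * M) :=
        mul_le_mul_of_nonneg_left c2 (by linarith)
      have b3 : (k - 1) * |conv (cr k) (cv k) N| ≤ (k - 1) * (9 * M) :=
        mul_le_mul_of_nonneg_left c3 (by linarith)
      nlinarith [c4, hMX, mul_nonneg hN1.le hX0, mul_nonneg (by linarith : (0:ℝ) ≤ k - 9) hX0,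
        mul_nonneg (by linarith : (0:ℝ) ≤ k - 9) hM0]
    have hR : |stepR k (cf k) N| ≤ 3 * X := by
      have e : stepR k (cf k) N = (stepP (cf k) N + (k + 3) / (k + 2) * stepV k (cf k) N
          + (conv (cr k) (cp k) N + (k + 3) / (k + 2) * conv (cr k) (cv k) N
            - k * conv (cr k) (cr k) N)) / (2 * ((N : ℝ) + 1) + k + 2) := rfl
      rw [e, abs_div, abs_of_pos (by linarith : (0 : ℝ) < 2 * ((N : ℝ) + 1) + k + 2),
        div_le_iff₀ (by linarith)]
      have t1 := abs_add_le (stepP (cf k) N + (k + 3) / (k + 2) * stepV k (cf k) N)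
        (conv (cr k) (cp k) N + (k + 3) / (k + 2) * conv (cr k) (cv k) N
            - k * conv (cr k) (cr k) N)
      have t2 := abs_add_le (stepP (cf k) N) ((k + 3) / (k + 2) * stepV k (cf k) N)
      have t3 := abs_sub (conv (cr k) (cp k) N + (k + 3) / (k + 2) * conv (cr k) (cv k) N)
        (k * conv (cr k) (cr k) N)
      have t4 := abs_add_le (conv (cr k) (cp k) N) ((k + 3) / (k + 2) * conv (cr k) (cv k) N)
      rw [abs_mul, abs_of_nonneg hq0] at t2 t4
      rw [abs_mul k, abs_of_nonneg (by linarith : 0 ≤ k)] at t3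
      have b1 : (k + 3) / (k + 2) * |stepV k (cf k) N| ≤ 12 / 11 * (3 * X) :=
        mul_le_mul hq hV (abs_nonneg _) (by norm_num)
      have b2 : (k + 3) / (k + 2) * |conv (cr k) (cv k) N| ≤ 12 / 11 * (9 * M) :=
        mul_le_mul hq c3 (abs_nonneg _) (by norm_num)
      have b3 : k * |conv (cr k) (cr k) N| ≤ k * (9 * M) :=
        mul_le_mul_of_nonneg_left c5 (by linarith)
      nlinarith [c2, hMX, mul_nonneg hN1.le hX0, mul_nonneg (by linarith : (0:ℝ) ≤ k - 9) hX0,
        mul_nonneg (by linarith : (0:ℝ) ≤ k - 9) hM0]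
    simp only [cp, cr, cv, cf_succ]
    exact ⟨hP, hR, hV⟩

/-- The sum of a power series with real coefficients. -/
noncomputable def psum (c : ℕ → ℝ) (s : ℝ) : ℝ := ∑' n : ℕ, c n * s ^ n

lemma psum_zero (c : ℕ → ℝ) : psum c 0 = c 0 := by
  unfold psum
  rw [tsum_eq_single 0 fun n hn => by simp [hn]]
  simp

lemma psum_analytic {c : ℕ → ℝ} {C ρ : ℝ} (hρ : 0 < ρ) (hc : ∀ n, |c n| ≤ C * ρ ^ n)
    {s : ℝ} (hs : |s| < ρ⁻¹) : AnalyticAt ℝ (psum c) s := by
  set P := FormalMultilinearSeries.ofScalars ℝ c with hP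
  set δ : NNReal := ⟨ρ⁻¹, by positivity⟩ with hδ
  have hrad : (δ : ENNReal) ≤ P.radius := by
    refine FormalMultilinearSeries.le_radius_of_bound P C fun n => ?_
    rw [hP, FormalMultilinearSeries.ofScalars_norm, Real.norm_eq_abs]
    calc |c n| * (δ : ℝ) ^ n ≤ C * ρ ^ n * (ρ⁻¹) ^ n :=
          mul_le_mul_of_nonneg_right (hc n) (by positivity)
      _ = C := by rw [mul_assoc, ← mul_pow, mul_inv_cancel₀ hρ.ne', one_pow, mul_one]
  have hδ0 : (0 : ENNReal) < (δ : ENNReal) :=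
    ENNReal.coe_pos.2 (by rw [← NNReal.coe_pos]; exact inv_pos.2 hρ)
  have h := P.hasFPowerSeriesOnBall (hδ0.trans_le hrad)
  have hfun : P.sum = psum c := by
    funext x
    simp [hP, psum, FormalMultilinearSeries.sum, smul_eq_mul, mul_comm]
  rw [hfun] at h
  refine h.analyticAt_of_mem ?_
  refine Metric.eball_subset_eball hrad ?_
  rw [Metric.mem_eball, edist_dist, dist_zero_right, Real.norm_eq_abs,
    ← ENNReal.ofReal_coe_nnreal]
  exact (ENNReal.ofReal_lt_ofReal_iff (inv_pos.2 hρ)).2 hs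

lemma psum_summable {c : ℕ → ℝ} {C ρ : ℝ} (hρ : 0 < ρ) (hc : ∀ n, |c n| ≤ C * ρ ^ n)
    {s : ℝ} (hs : |s| < ρ⁻¹) :
    Summable (fun n : ℕ => ‖c n * s ^ n‖) ∧ Summable (fun n : ℕ => ‖(n : ℝ) * c n * s ^ n‖) := by
  have hC : 0 ≤ C := by simpa using (abs_nonneg _).trans (hc 0)
  have hx : ρ * |s| < 1 := by
    have := mul_lt_mul_of_pos_left hs hρ
    rwa [mul_inv_cancel₀ hρ.ne'] at this
  have hx0 : 0 ≤ ρ * |s| := by positivity
  have b : ∀ n, |c n| * |s| ^ n ≤ C * (ρ * |s|) ^ n := fun n => by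
    rw [mul_pow, ← mul_assoc]
    exact mul_le_mul_of_nonneg_right (hc n) (by positivity)
  constructor
  · refine Summable.of_nonneg_of_le (fun n => norm_nonneg _) (fun n => ?_)
      ((summable_geometric_of_lt_one hx0 hx).mul_left C)
    rw [Real.norm_eq_abs, abs_mul, abs_pow]
    exact b n
  · have h1 := summable_pow_mul_geometric_of_norm_lt_one 1
      (show ‖ρ * |s|‖ < 1 by rwa [Real.norm_of_nonneg hx0])
    refine Summable.of_nonneg_of_le (fun n => norm_nonneg _) (fun n => ?_) (h1.mul_left C)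
    rw [Real.norm_eq_abs, mul_assoc, abs_mul, abs_mul, abs_pow, Nat.abs_cast, pow_one]
    calc (n : ℝ) * (|c n| * |s| ^ n) ≤ (n : ℝ) * (C * (ρ * |s|) ^ n) :=
          mul_le_mul_of_nonneg_left (b n) (Nat.cast_nonneg n)
      _ = C * ((n : ℝ) * (ρ * |s|) ^ n) := by ring

lemma psum_hasDerivAt {c : ℕ → ℝ} {C ρ : ℝ} (hρ : 0 < ρ) (hc : ∀ n, |c n| ≤ C * ρ ^ n)
    {s : ℝ} (hs : |s| < (2 * ρ)⁻¹) :
    HasDerivAt (psum c) (∑' n : ℕ, c n * ((n : ℝ) * s ^ (n - 1))) s := by
  set δ := (2 * ρ)⁻¹ with hδ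
  have hδ0 : 0 < δ := by positivity
  have hC : 0 ≤ C := by simpa using (abs_nonneg _).trans (hc 0)
  have hu : Summable fun n : ℕ => C * δ⁻¹ * ((n : ℝ) * (1 / 2) ^ n) := by
    have h1 := summable_pow_mul_geometric_of_norm_lt_one 1 (show ‖(1 / 2 : ℝ)‖ < 1 by norm_num)
    simpa using h1.mul_left (C * δ⁻¹)
  refine hasDerivAt_tsum_of_isPreconnected (g := fun (n : ℕ) (y : ℝ) => c n * y ^ n)
    (g' := fun (n : ℕ) (y : ℝ) => c n * ((n : ℝ) * y ^ (n - 1))) hu Metric.isOpen_ball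
    (convex_ball (0 : ℝ) δ).isPreconnected
    (fun n y _ => (hasDerivAt_pow n y).const_mul (c n)) (fun n y hy => ?_)
    (Metric.mem_ball_self hδ0) ?_ (by rwa [Metric.mem_ball, dist_zero_right])
  · rw [Metric.mem_ball, dist_zero_right, Real.norm_eq_abs] at hy
    rw [Real.norm_eq_abs, abs_mul, abs_mul, abs_pow, Nat.abs_cast]
    rcases n with _ | n
    · simp
    · have h1 : |y| ^ n ≤ δ ^ n := pow_le_pow_left₀ (abs_nonneg _) hy.le n
      calc |c (n + 1)| * (((n + 1 : ℕ) : ℝ) * |y| ^ n)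
          ≤ (C * ρ ^ (n + 1)) * (((n + 1 : ℕ) : ℝ) * δ ^ n) :=
            mul_le_mul (hc _) (mul_le_mul_of_nonneg_left h1 (Nat.cast_nonneg _))
              (by positivity) (by positivity)
        _ = C * δ⁻¹ * (((n + 1 : ℕ) : ℝ) * (ρ * δ) ^ (n + 1)) := by
            rw [mul_pow, pow_succ δ]; field_simp
        _ = _ := by
            rw [show ρ * δ = 1 / 2 by rw [hδ]; field_simp]
  · refine summable_of_ne_finset_zero (s := {0}) fun n hn => ?_
    simp [show n ≠ 0 by simpa using hn]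

lemma psum_euler {c : ℕ → ℝ} {C ρ : ℝ} (hρ : 0 < ρ) (hc : ∀ n, |c n| ≤ C * ρ ^ n)
    {s : ℝ} (hs : |s| < (2 * ρ)⁻¹) :
    s * deriv (psum c) s = ∑' n : ℕ, (n : ℝ) * c n * s ^ n := by
  rw [(psum_hasDerivAt hρ hc hs).deriv, ← tsum_mul_left]
  refine tsum_congr fun n => ?_
  rcases n with _ | n
  · simp
  · simp only [Nat.add_sub_cancel]; ring

lemma psum_mul {c d : ℕ → ℝ} {C D ρ : ℝ} (hρ : 0 < ρ) (hc : ∀ n, |c n| ≤ C * ρ ^ n)
    (hd : ∀ n, |d n| ≤ D * ρ ^ n) {s : ℝ} (hs : |s| < ρ⁻¹) :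
    psum c s * psum d s = psum (conv c d) s ∧ Summable fun n => conv c d n * s ^ n := by
  have h1 := (psum_summable hρ hc hs).1
  have h2 := (psum_summable hρ hd hs).1
  have e : ∀ n, ∑ i ∈ Finset.range (n + 1), c i * s ^ i * (d (n - i) * s ^ (n - i))
      = conv c d n * s ^ n := by
    intro n
    rw [conv, Finset.sum_mul]
    refine Finset.sum_congr rfl fun i hi => ?_
    have := Finset.mem_range.1 hi
    calc c i * s ^ i * (d (n - i) * s ^ (n - i)) = c i * d (n - i) * (s ^ i * s ^ (n - i)) := by ring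
      _ = c i * d (n - i) * s ^ n := by rw [← pow_add, Nat.add_sub_cancel' (by omega)]
  refine ⟨?_, ?_⟩
  · unfold psum
    rw [tsum_mul_tsum_eq_tsum_sum_range_of_summable_norm h1 h2]
    exact tsum_congr e
  · have := summable_norm_sum_mul_range_of_summable_norm h1 h2
    exact (Summable.of_norm this).congr e

end Vale.Agent.P252
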