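import Mathlib
import Vale.Agent.P252.Series

/-!
The series solve the reduced system near the origin.
-/

open scoped ContDiff Topology

namespace Vale.Agent.P252

lemma conv_sub (f g h : ℕ → ℝ) (n : ℕ) :
    conv f (fun i => g i - h i) n = conv f g n - conv f h n := by
  simp [conv, mul_sub, Finset.sum_sub_distrib]

/-- Cauchy product and shift: coefficient identity turned into a functional identity. -/
lemma euler_identity {c d e : ℕ → ℝ} {C ρ s lam : ℝ} (hρ : 0 < ρ) (hc : ∀ n, |c n| ≤ C * ρ ^ n)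
    (hd : Summable fun n => d n * s ^ n) (he : Summable fun n => e n * s ^ n)
    (hs : |s| < (2 * ρ)⁻¹) (h0 : lam * c 0 = d 0)
    (h : ∀ n : ℕ, (2 * ((n : ℝ) + 1) + lam) * c (n + 1) = d (n + 1) + e n) :
    2 * (s * deriv (psum c) s) + lam * psum c s = psum d s + s * psum e s := by
  have hs' : |s| < ρ⁻¹ := hs.trans_le (inv_anti₀ hρ (by linarith))
  obtain ⟨h1, h2⟩ := psum_summable hρ hc hs'
  have hcs : Summable fun n : ℕ => c n * s ^ n := Summable.of_norm h1
  have hnc : Summable fun n : ℕ => (n : ℝ) * c n * s ^ n := Summable.of_norm h2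
  rw [psum_euler hρ hc hs]
  unfold psum
  have hsum := (hnc.mul_left 2).add (hcs.mul_left lam)
  rw [← tsum_mul_left, ← tsum_mul_left, ← (hnc.mul_left 2).tsum_add (hcs.mul_left lam),
    hsum.tsum_eq_zero_add, hd.tsum_eq_zero_add]
  simp only [add_assoc]
  rw [← tsum_mul_left, ← ((summable_nat_add_iff 1).2 hd).tsum_add (he.mul_left s)]
  simp only [pow_zero, mul_one, Nat.cast_zero, zero_mul, mul_zero, zero_add]
  rw [h0]
  congr 1
  refine tsum_congr fun n => ?_
  push_cast
  calc 2 * (((n : ℝ) + 1) * c (n + 1) * s ^ (n + 1)) + lam * (c (n + 1) * s ^ (n + 1))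
      = (2 * ((n : ℝ) + 1) + lam) * c (n + 1) * s ^ (n + 1) := by ring
    _ = (d (n + 1) + e n) * s ^ (n + 1) := by rw [h n]
    _ = _ := by ring

variable {k : ℝ}

lemma local_solution (hk : 9 ≤ k) : ∃ δ : ℝ, 0 < δ ∧ ∃ p r v : ℝ → ℝ,
    p 0 = 1 ∧ 0 < r 0 ∧ 0 < v 0 ∧
    ContDiffOn ℝ ∞ p (Set.Ioo (-δ) δ) ∧ ContDiffOn ℝ ∞ r (Set.Ioo (-δ) δ) ∧
    ContDiffOn ℝ ∞ v (Set.Ioo (-δ) δ) ∧
    ∀ s ∈ Set.Ioo (-δ) δ,
      HasDerivAt p (p s * (r s - p s) / 2) s ∧
      2 * (s * deriv r s) = -(k + 2) * r s + p s + (k + 3) / (k + 2) * v s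
        + s * r s * (p s + (k + 3) / (k + 2) * v s - k * r s) ∧
      2 * (s * deriv v s) = (k + 2) * p s - k * v s
        + s * ((k + 2) * r s * p s - (k - 1) * r s * v s + v s ^ 2) := by
  set ρ := 40 * (k + 2) with hρdef
  have hρ : 0 < ρ := by linarith
  have hp : ∀ n, |cp k n| ≤ 1 * ρ ^ n := fun n => by rw [one_mul]; exact (cf_bound hk n).1
  have hr : ∀ n, |cr k n| ≤ 3 * ρ ^ n := fun n => (cf_bound hk n).2.1
  have hv : ∀ n, |cv k n| ≤ 3 * ρ ^ n := fun n => (cf_bound hk n).2.2
  set δ := (2 * ρ)⁻¹ with hδ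
  have hδρ : δ ≤ ρ⁻¹ := inv_anti₀ hρ (by linarith)
  have han : ∀ (c : ℕ → ℝ) (C : ℝ), (∀ n, |c n| ≤ C * ρ ^ n) →
      ContDiffOn ℝ ∞ (psum c) (Set.Ioo (-δ) δ) := fun c C hc s hs =>
    ((psum_analytic hρ hc ((abs_lt.2 hs).trans_le hδρ)).contDiffAt).contDiffWithinAt
  refine ⟨δ, by positivity, psum (cp k), psum (cr k), psum (cv k), ?_, ?_, ?_,
    han _ _ hp, han _ _ hr, han _ _ hv, fun s hs => ?_⟩
  · simp [psum_zero, cp, cf, pre, coeff0]
  · simp only [psum_zero, cr, cf, pre, coeff0]
    positivity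
  · simp only [psum_zero, cv, cf, pre, coeff0]
    positivity
  have hs1 : |s| < δ := abs_lt.2 hs
  have hs2 : |s| < ρ⁻¹ := hs1.trans_le hδρ
  have Sp : Summable fun n => cp k n * s ^ n := Summable.of_norm (psum_summable hρ hp hs2).1
  have Sr : Summable fun n => cr k n * s ^ n := Summable.of_norm (psum_summable hρ hr hs2).1
  have Sv : Summable fun n => cv k n * s ^ n := Summable.of_norm (psum_summable hρ hv hs2).1
  obtain ⟨mrp, srp⟩ := psum_mul hρ hr hp hs2
  obtain ⟨mrv, srv⟩ := psum_mul hρ hr hv hs2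
  obtain ⟨mvv, svv⟩ := psum_mul hρ hv hv hs2
  obtain ⟨mrr, srr⟩ := psum_mul hρ hr hr hs2
  obtain ⟨mpr, spr⟩ := psum_mul hρ hp hr hs2
  obtain ⟨mpp, spp⟩ := psum_mul hρ hp hp hs2
  refine ⟨?_, ?_, ?_⟩
  · refine (psum_hasDerivAt hρ hp hs1).congr_deriv ?_
    have e : psum (cp k) s * (psum (cr k) s - psum (cp k) s) / 2
        = ∑' n : ℕ, (conv (cp k) (cr k) n * s ^ n - conv (cp k) (cp k) n * s ^ n) / 2 := by
      rw [mul_sub, mpr, mpp, tsum_div_const, spr.tsum_sub spp]
      rfl
    rw [e]
    have hsd : Summable fun n : ℕ => cp k n * ((n : ℝ) * s ^ (n - 1)) := by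
      refine (summable_nat_add_iff 1).1 ?_
      refine ((spr.sub spp).div_const 2).congr fun n => ?_
      have h := cf_succ k n
      simp only [cp, h, stepP, conv_sub, Nat.add_sub_cancel]
      have hn : (n : ℝ) + 1 ≠ 0 := by positivity
      push_cast
      field_simp
      unfold cp cr
      ring
    rw [hsd.tsum_eq_zero_add]
    simp only [Nat.cast_zero, zero_mul, mul_zero, zero_add]
    refine tsum_congr fun n => ?_
    have h := cf_succ k n
    simp only [cp, h, stepP, conv_sub, Nat.add_sub_cancel]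
    have hn : (n : ℝ) + 1 ≠ 0 := by positivity
    push_cast
    field_simp
    unfold cp cr
    ring
  · set q := (k + 3) / (k + 2) with hq
    have key := euler_identity (c := cr k) (d := fun n => cp k n + q * cv k n)
      (e := fun n => conv (cr k) (cp k) n + q * conv (cr k) (cv k) n - k * conv (cr k) (cr k) n)
      (lam := k + 2) hρ hr
      ((Sp.add (Sv.mul_left q)).congr fun n => by ring)
      (((srp.add (srv.mul_left q)).sub (srr.mul_left k)).congr fun n => by ring) hs1
      (by simp only [cr, cp, cv, cf, pre, coeff0, hq]; field_simp)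
      (fun n => by
        simp only [cr, cp, cv, cf_succ, stepR, hq]
        rw [mul_div_assoc']
        rw [div_eq_iff (by positivity)]
        unfold cr cp cv
        ring)
    have e1 : psum (fun n => cp k n + q * cv k n) s = psum (cp k) s + q * psum (cv k) s := by
      unfold psum
      rw [← tsum_mul_left, ← Sp.tsum_add (Sv.mul_left q)]
      exact tsum_congr fun n => by ring
    have e2 : psum (fun n => conv (cr k) (cp k) n + q * conv (cr k) (cv k) n
          - k * conv (cr k) (cr k) n) s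
        = psum (cr k) s * (psum (cp k) s + q * psum (cv k) s - k * psum (cr k) s) := by
      rw [mul_sub, mul_add, mrp, mul_left_comm _ q, mrv, mul_left_comm _ k, mrr]
      unfold psum
      rw [← tsum_mul_left, ← tsum_mul_left, ← srp.tsum_add (srv.mul_left q),
        ← (srp.add (srv.mul_left q)).tsum_sub (srr.mul_left k)]
      exact tsum_congr fun n => by ring
    rw [e1, e2] at key
    linarith
  · have key := euler_identity (c := cv k) (d := fun n => (k + 2) * cp k n)
      (e := fun n => (k + 2) * conv (cr k) (cp k) n - (k - 1) * conv (cr k) (cv k) n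
        + conv (cv k) (cv k) n) (lam := k) hρ hv
      ((Sp.mul_left (k + 2)).congr fun n => by ring)
      ((((srp.mul_left (k + 2)).sub (srv.mul_left (k - 1))).add svv).congr fun n => by ring) hs1
      (by simp only [cp, cv, cf, pre, coeff0]; field_simp)
      (fun n => by
        simp only [cp, cv, cf_succ, stepV]
        rw [mul_div_assoc', div_eq_iff (by positivity)]
        unfold cr cp cv
        ring)
    have e1 : psum (fun n => (k + 2) * cp k n) s = (k + 2) * psum (cp k) s := by
      unfold psum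
      rw [← tsum_mul_left]
      exact tsum_congr fun n => by ring
    have e2 : psum (fun n => (k + 2) * conv (cr k) (cp k) n - (k - 1) * conv (cr k) (cv k) n
          + conv (cv k) (cv k) n) s
        = (k + 2) * psum (cr k) s * psum (cp k) s - (k - 1) * psum (cr k) s * psum (cv k) s
          + psum (cv k) s ^ 2 := by
      rw [mul_assoc, mrp, mul_assoc (k - 1), mrv, sq, mvv]
      unfold psum
      rw [← tsum_mul_left, ← tsum_mul_left,
        ← (srp.mul_left (k + 2)).tsum_sub (srv.mul_left (k - 1)),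
        ← ((srp.mul_left (k + 2)).sub (srv.mul_left (k - 1))).tsum_add svv]
      exact tsum_congr fun n => by ring
    rw [e1, e2] at key
    linarith

end Vale.Agent.P252
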