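import Mathlib
import Vale.Agent.P252.Local

/-!
Global continuation of the local profile, through an invariant box of the autonomous system in
`τ = log s` for the variables `(P, R, m) = (s p, 1 + s r, s v / (1 + s r))`.
-/

open scoped ContDiff Topology
open Set

namespace Vale.Agent.P252

/-- Admissible invariant box. -/
structure Box (k Rs M : ℝ) : Prop where
  nine : 9 ≤ k
  hR : 1 < Rs
  hM : 0 < M
  hME : M ≤ k + 2
  hA : 1 + Rs + (k + 3) / (k + 2) * M * Rs ≤ k * (Rs - 1)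
  hB : (k + 2) * (1 + Rs) - M * (1 + Rs) - (k - 1) * M + M * Rs - M ^ 2 * Rs / (k + 2) ≤ 0

/-- The autonomous field. -/
noncomputable def field (k : ℝ) (x : ℝ × ℝ × ℝ) : ℝ × ℝ × ℝ :=
  (x.1 * (1 + x.2.1 - x.1) / 2,
   x.2.1 * (x.1 + (k + 3) / (k + 2) * x.2.2 * x.2.1 - k * (x.2.1 - 1)) / 2,
   ((k + 2) * x.1 - x.2.2 * x.1 - (k - 1) * x.2.2 + x.2.2 * x.2.1
      - x.2.2 ^ 2 * x.2.1 / (k + 2)) / 2)

/-- Projection to the box. -/
noncomputable def clip (Rs M : ℝ) (x : ℝ × ℝ × ℝ) : ℝ × ℝ × ℝ :=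
  (max 0 (min (1 + Rs) x.1), max 1 (min Rs x.2.1), max 0 (min M x.2.2))

/-- Membership in the box. -/
def InBox (Rs M : ℝ) (x : ℝ × ℝ × ℝ) : Prop :=
  (0 ≤ x.1 ∧ x.1 ≤ 1 + Rs) ∧ (1 ≤ x.2.1 ∧ x.2.1 ≤ Rs) ∧ (0 ≤ x.2.2 ∧ x.2.2 ≤ M)

variable {k Rs M : ℝ}

lemma clip_mem (hb : Box k Rs M) (x : ℝ × ℝ × ℝ) : InBox Rs M (clip Rs M x) := by
  have := hb.hR; have := hb.hM
  refine ⟨⟨le_max_left _ _, ?_⟩, ⟨le_max_left _ _, ?_⟩, le_max_left _ _, ?_⟩
  · exact max_le (by linarith) (min_le_left _ _)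
  · exact max_le (by linarith) (min_le_left _ _)
  · exact max_le (by linarith) (min_le_left _ _)

lemma clip_eq {x : ℝ × ℝ × ℝ} (h : InBox Rs M x) : clip Rs M x = x := by
  obtain ⟨⟨a, b⟩, ⟨c, d⟩, e, f⟩ := h
  simp [clip, min_eq_right b, min_eq_right d, min_eq_right f, a, c, e]

lemma clip_lipschitz (Rs M : ℝ) : LipschitzWith 1 (clip Rs M) := by
  have h : ∀ a b : ℝ, LipschitzWith 1 fun t : ℝ => max a (min b t) := fun a b =>
    ((LipschitzWith.id).const_min b).const_max a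
  have h1 := (h 0 (1 + Rs)).comp (LipschitzWith.prod_fst (α := ℝ) (β := ℝ × ℝ))
  have h2 := (h 1 Rs).comp ((LipschitzWith.prod_fst (α := ℝ) (β := ℝ)).comp
    (LipschitzWith.prod_snd (α := ℝ) (β := ℝ × ℝ)))
  have h3 := (h 0 M).comp ((LipschitzWith.prod_snd (α := ℝ) (β := ℝ)).comp
    (LipschitzWith.prod_snd (α := ℝ) (β := ℝ × ℝ)))
  have := h1.prodMk (h2.prodMk h3)
  simp only [mul_one, max_self] at this
  exact this

/-- The clipped field. -/
noncomputable def cfield (k Rs M : ℝ) (x : ℝ × ℝ × ℝ) : ℝ × ℝ × ℝ := field k (clip Rs M x)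

lemma cfield_props (hb : Box k Rs M) :
    ∃ (L K : NNReal), (∀ x, ‖cfield k Rs M x‖ ≤ L) ∧ LipschitzWith K (cfield k Rs M) := by
  set B : Set (ℝ × ℝ × ℝ) := Icc 0 (1 + Rs) ×ˢ (Icc 1 Rs ×ˢ Icc 0 M) with hB
  have hc : IsCompact B := isCompact_Icc.prod (isCompact_Icc.prod isCompact_Icc)
  have hconv : Convex ℝ B := (convex_Icc _ _).prod ((convex_Icc _ _).prod (convex_Icc _ _))
  have hmem : ∀ x, clip Rs M x ∈ B := fun x => by
    obtain ⟨h1, h2, h3⟩ := clip_mem hb x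
    exact ⟨h1, h2, h3⟩
  have hf : ContDiff ℝ 1 (field k) := by unfold field; fun_prop
  obtain ⟨L, hL⟩ := hc.exists_bound_of_continuousOn hf.continuous.continuousOn
  obtain ⟨K, hK⟩ := hf.contDiffOn.exists_lipschitzOnWith one_ne_zero hconv hc
  have hL0 : 0 ≤ L := (norm_nonneg _).trans (hL _ (hmem 0))
  refine ⟨⟨L, hL0⟩, K * 1, fun x => hL _ (hmem x), ?_⟩
  rw [← lipschitzOnWith_univ]
  exact hK.comp ((clip_lipschitz Rs M).lipschitzOnWith) fun x _ => hmem x

lemma le_of_deriv_nonpos_above {y y' : ℝ → ℝ} {a U : ℝ} (hy : ∀ t, a ≤ t → HasDerivAt y (y' t) t)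
    (h0 : y a ≤ U) (hneg : ∀ t, a ≤ t → U < y t → y' t ≤ 0) : ∀ t, a ≤ t → y t ≤ U := by
  intro T hT
  refine le_of_forall_pos_le_add fun ε hε => ?_
  set η := ε / (1 + (T - a)) with hη
  have hη0 : 0 < η := by
    have : 0 ≤ T - a := by linarith
    positivity
  have key := image_le_of_deriv_right_lt_deriv_boundary (f := y) (f' := y') (a := a) (b := T)
    (B := fun t => U + η * (1 + (t - a))) (B' := fun _ => η)
    (fun t ht => (hy t ht.1).continuousAt.continuousWithinAt)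
    (fun t ht => (hy t ht.1).hasDerivWithinAt) (by simp; linarith)
    (fun t => by simpa using ((((hasDerivAt_id t).sub_const a).const_add 1).const_mul η).const_add U)
    (fun t ht heq => lt_of_le_of_lt (hneg t ht.1 (by
      rw [heq]; nlinarith [ht.1, mul_pos hη0 (show (0:ℝ) < 1 + (t - a) by linarith [ht.1])])) hη0)
    ⟨hT, le_rfl⟩
  have : η * (1 + (T - a)) = ε := by
    rw [hη, div_mul_cancel₀]; linarith
  linarith

lemma invariant_box (hb : Box k Rs M) {X : ℝ → ℝ × ℝ × ℝ} {a : ℝ}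
    (hX : ∀ t, a ≤ t → HasDerivAt X (cfield k Rs M (X t)) t) (h0 : InBox Rs M (X a)) :
    ∀ t, a ≤ t → InBox Rs M (X t) := by
  have hk := hb.nine
  have hq : 0 ≤ (k + 3) / (k + 2) := div_nonneg (by linarith) (by linarith)
  have d1 : ∀ t, a ≤ t → HasDerivAt (fun t => (X t).1) (cfield k Rs M (X t)).1 t :=
    fun t ht => (ContinuousLinearMap.fst ℝ ℝ (ℝ × ℝ)).hasFDerivAt.comp_hasDerivAt t (hX t ht)
  have d2 : ∀ t, a ≤ t → HasDerivAt (fun t => (X t).2.1) (cfield k Rs M (X t)).2.1 t :=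
    fun t ht => (ContinuousLinearMap.fst ℝ ℝ ℝ).hasFDerivAt.comp_hasDerivAt t ((ContinuousLinearMap.snd ℝ ℝ (ℝ × ℝ)).hasFDerivAt.comp_hasDerivAt t (hX t ht))
  have d3 : ∀ t, a ≤ t → HasDerivAt (fun t => (X t).2.2) (cfield k Rs M (X t)).2.2 t :=
    fun t ht => (ContinuousLinearMap.snd ℝ ℝ ℝ).hasFDerivAt.comp_hasDerivAt t ((ContinuousLinearMap.snd ℝ ℝ (ℝ × ℝ)).hasFDerivAt.comp_hasDerivAt t (hX t ht))
  intro t ht
  obtain ⟨⟨i1, i2⟩, ⟨i3, i4⟩, i5, i6⟩ := h0
  have := hb.hR; have := hb.hM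
  have u1 := le_of_deriv_nonpos_above (U := 1 + Rs) d1 i2 (fun s _ hs => by
    obtain ⟨-, ⟨-, c2⟩, -⟩ := clip_mem hb (X s)
    have e : (clip Rs M (X s)).1 = 1 + Rs := by
      simp [clip, min_eq_left hs.le]; linarith
    simp only [cfield, field, e]
    have : (1 + Rs) * (1 + (clip Rs M (X s)).2.1 - (1 + Rs)) ≤ 0 :=
      mul_nonpos_of_nonneg_of_nonpos (by linarith) (by linarith)
    linarith) t ht
  have l1 := le_of_deriv_nonpos_above (U := 0) (fun s hs => (d1 s hs).neg) (by simpa using i1)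
    (fun s _ hs => by
      simp only [Pi.neg_apply] at hs
      have e : (clip Rs M (X s)).1 = 0 := by
        have : (X s).1 < 0 := by linarith
        simp [clip, this.le]
      simp [cfield, field, e]) t ht
  have u2 := le_of_deriv_nonpos_above (U := Rs) d2 i4 (fun s _ hs => by
    obtain ⟨⟨-, c1⟩, -, c5, c6⟩ := clip_mem hb (X s)
    have e : (clip Rs M (X s)).2.1 = Rs := by
      simp [clip, min_eq_left hs.le]; linarith
    simp only [cfield, field, e]
    have h1 : (k + 3) / (k + 2) * (clip Rs M (X s)).2.2 * Rs ≤ (k + 3) / (k + 2) * M * Rs :=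
      mul_le_mul_of_nonneg_right (mul_le_mul_of_nonneg_left c6 hq) (by linarith)
    have : Rs * ((clip Rs M (X s)).1 + (k + 3) / (k + 2) * (clip Rs M (X s)).2.2 * Rs
        - k * (Rs - 1)) ≤ 0 :=
      mul_nonpos_of_nonneg_of_nonpos (by linarith) (by linarith [hb.hA])
    linarith) t ht
  have l2 := le_of_deriv_nonpos_above (U := -1) (fun s hs => (d2 s hs).neg) (by simp only [Pi.neg_apply]; linarith)
    (fun s _ hs => by
      simp only [Pi.neg_apply] at hs
      obtain ⟨⟨c0, -⟩, -, c5, -⟩ := clip_mem hb (X s)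
      have e : (clip Rs M (X s)).2.1 = 1 := by
        have : (X s).2.1 < 1 := by linarith
        simp [clip, this.le]
      simp only [cfield, field, e]
      have : 0 ≤ (k + 3) / (k + 2) * (clip Rs M (X s)).2.2 := mul_nonneg hq c5
      linarith) t ht
  have u3 := le_of_deriv_nonpos_above (U := M) d3 i6 (fun s _ hs => by
    obtain ⟨⟨c0, c1⟩, ⟨c2, c3⟩, -⟩ := clip_mem hb (X s)
    have e : (clip Rs M (X s)).2.2 = M := by
      simp [clip, min_eq_left hs.le]; linarith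
    simp only [cfield, field, e]
    set P := (clip Rs M (X s)).1
    set R := (clip Rs M (X s)).2.1
    have h1 : (k + 2 - M) * P ≤ (k + 2 - M) * (1 + Rs) :=
      mul_le_mul_of_nonneg_left c1 (by linarith [hb.hME])
    have h2 : M * (1 - M / (k + 2)) * R ≤ M * (1 - M / (k + 2)) * Rs := by
      refine mul_le_mul_of_nonneg_left c3 (mul_nonneg hb.hM.le ?_)
      rw [sub_nonneg, div_le_one (by linarith)]; exact hb.hME
    have h3 := hb.hB
    have e1 : M ^ 2 * R / (k + 2) = M * (M / (k + 2)) * R := by ring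
    have e2 : M ^ 2 * Rs / (k + 2) = M * (M / (k + 2)) * Rs := by ring
    rw [e2] at h3
    rw [e1]
    linarith) t ht
  have l3 := le_of_deriv_nonpos_above (U := 0) (fun s hs => (d3 s hs).neg) (by simpa using i5)
    (fun s _ hs => by
      simp only [Pi.neg_apply] at hs
      obtain ⟨⟨c0, -⟩, -, -⟩ := clip_mem hb (X s)
      have e : (clip Rs M (X s)).2.2 = 0 := by
        have : (X s).2.2 < 0 := by linarith
        simp [clip, this.le]
      simp [cfield, field, e]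
      have : 0 ≤ (k + 2) * (clip Rs M (X s)).1 := mul_nonneg (by linarith) c0
      linarith) t ht
  simp only [Pi.neg_apply] at l1 l2 l3
  exact ⟨⟨by linarith, u1⟩, ⟨by linarith, u2⟩, by linarith, u3⟩

lemma pos_fst (hb : Box k Rs M) {X : ℝ → ℝ × ℝ × ℝ} {a : ℝ}
    (hX : ∀ t, a ≤ t → HasDerivAt X (cfield k Rs M (X t)) t)
    (hbox : ∀ t, a ≤ t → InBox Rs M (X t)) (h0 : 0 < (X a).1) : ∀ t, a ≤ t → 0 < (X t).1 := by
  intro t ht
  have hd : ∀ s, a ≤ s → HasDerivAt (fun s => (X s).1 * Real.exp ((1 + Rs) * s))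
      (((X s).1 * (1 + (X s).2.1 - (X s).1) / 2 + (1 + Rs) * (X s).1)
        * Real.exp ((1 + Rs) * s)) s := by
    intro s hs
    have h1 : HasDerivAt (fun s => (X s).1) ((X s).1 * (1 + (X s).2.1 - (X s).1) / 2) s := by
      refine HasDerivAt.congr_deriv ((ContinuousLinearMap.fst ℝ ℝ (ℝ × ℝ)).hasFDerivAt.comp_hasDerivAt s (hX s hs)) ?_
      simp [cfield, field, clip_eq (hbox s hs)]
    refine (h1.mul (((hasDerivAt_id s).const_mul (1 + Rs)).exp)).congr_deriv ?_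
    simp; ring
  have hm : MonotoneOn (fun s => (X s).1 * Real.exp ((1 + Rs) * s)) (Ici a) := by
    refine monotoneOn_of_deriv_nonneg (convex_Ici a)
      (fun s hs => (hd s hs).continuousAt.continuousWithinAt)
      (fun s hs => ((hd s (interior_subset hs)).differentiableAt).differentiableWithinAt)
      fun s hs => ?_
    have hs' : a ≤ s := interior_subset hs
    rw [(hd s hs').deriv]
    obtain ⟨⟨c0, c1⟩, ⟨c2, -⟩, -⟩ := hbox s hs'
    refine mul_nonneg ?_ (Real.exp_pos _).le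
    nlinarith [mul_le_mul_of_nonneg_left c1 c0, mul_le_mul_of_nonneg_left c2 c0]
  have h := hm self_mem_Ici ht ht
  have h2 : 0 < (X a).1 * Real.exp ((1 + Rs) * a) := mul_pos h0 (Real.exp_pos _)
  exact pos_of_mul_pos_left (h2.trans_le h) (Real.exp_pos _).le

lemma global_solution (hb : Box k Rs M) (a : ℝ) (x₀ : ℝ × ℝ × ℝ) :
    ∃ X : ℝ → ℝ × ℝ × ℝ, X a = x₀ ∧ ∀ t, a - 1 < t → HasDerivAt X (cfield k Rs M (X t)) t := by
  obtain ⟨L, K, hL, hK⟩ := cfield_props hb
  have hex : ∀ n : ℕ, ∃ α : ℝ → ℝ × ℝ × ℝ, α a = x₀ ∧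
      ∀ t ∈ Icc (a - 1) (a + (n + 1)),
        HasDerivWithinAt α (cfield k Rs M (α t)) (Icc (a - 1) (a + (n + 1))) t := by
    intro n
    set t₀ : Icc (a - 1) (a + ((n : ℝ) + 1)) := ⟨a, by constructor <;> linarith [(Nat.cast_nonneg n : (0:ℝ) ≤ n)]⟩
    have hp : IsPicardLindelof (fun _ => cfield k Rs M) t₀ x₀ (L * ((n : NNReal) + 1)) 0 L K := by
      refine IsPicardLindelof.of_time_independent (fun x _ => hL x) hK.lipschitzOnWith ?_
      simp only [NNReal.coe_mul, NNReal.coe_add, NNReal.coe_natCast, NNReal.coe_one,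
        NNReal.coe_zero, sub_zero]
      refine mul_le_mul_of_nonneg_left (max_le ?_ ?_) L.2 <;>
        simp only [t₀] <;> linarith [(Nat.cast_nonneg n : (0:ℝ) ≤ n)]
    exact hp.exists_eq_forall_mem_Icc_hasDerivWithinAt₀
  choose α hα0 hαd using hex
  have hagree : ∀ n m : ℕ, n ≤ m → EqOn (α n) (α m) (Icc (a - 1) (a + (n + 1))) := by
    intro n m hnm
    have hsub : Icc (a - 1) (a + ((n : ℝ) + 1)) ⊆ Icc (a - 1) (a + ((m : ℝ) + 1)) :=
      Icc_subset_Icc_right (by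
        have : (n : ℝ) ≤ m := by exact_mod_cast hnm
        linarith)
    refine ODE_solution_unique_of_mem_Icc (v := fun _ => cfield k Rs M) (s := fun _ => univ)
      (K := K) (t₀ := a) (fun _ _ => hK.lipschitzOnWith) ⟨by linarith, by
        have := (Nat.cast_nonneg n : (0:ℝ) ≤ n); linarith⟩
      (fun t ht => (hαd n t ht).continuousWithinAt)
      (fun t ht => (hαd n t (Ioo_subset_Icc_self ht)).hasDerivAt (Icc_mem_nhds ht.1 ht.2))
      (fun _ _ => mem_univ _)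
      (fun t ht => ((hαd m t (hsub ht)).continuousWithinAt).mono hsub)
      (fun t ht => (hαd m t (hsub (Ioo_subset_Icc_self ht))).hasDerivAt
        (Filter.mem_of_superset (Icc_mem_nhds ht.1 ht.2) hsub))
      (fun _ _ => mem_univ _) (by rw [hα0, hα0])
  refine ⟨fun t => α ⌈t - a⌉₊ t, by simp [hα0], fun t ht => ?_⟩
  set N := ⌈t - a⌉₊ + 1 with hN
  have ht' : t < a + ((N : ℝ)) := by
    rw [hN]; push_cast; linarith [Nat.le_ceil (t - a)]
  have hev : (fun t => α ⌈t - a⌉₊ t) =ᶠ[𝓝 t] α N := by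
    filter_upwards [Ioo_mem_nhds ht ht'] with s hs
    refine hagree _ N (Nat.ceil_le.2 (by linarith [hs.2])) ⟨hs.1.le, ?_⟩
    linarith [Nat.le_ceil (s - a)]
  have hd : HasDerivAt (α N) (cfield k Rs M (α N t)) t :=
    (hαd N t ⟨ht.le, by linarith⟩).hasDerivAt (Icc_mem_nhds ht (by linarith))
  refine (hd.congr_of_eventuallyEq hev).congr_deriv ?_
  have e := hev.eq_of_nhds
  simp only [e]

end Vale.Agent.P252
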