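import Mathlib
import Vale.Agent.P252.Profile

/-!
The global smooth profile functions `p, r, v` on `(-δ, ∞)`.
-/

open scoped ContDiff Topology
open Set

namespace Vale.Agent.P252

variable {k Rs M : ℝ}

/-- The reduced system in the variable `s`, away from the origin. -/
noncomputable def sfield (k s : ℝ) (x : ℝ × ℝ × ℝ) : ℝ × ℝ × ℝ :=
  (x.1 * (x.2.1 - x.1) / 2,
   (-(k + 2) * x.2.1 + x.1 + (k + 3) / (k + 2) * x.2.2
      + s * x.2.1 * (x.1 + (k + 3) / (k + 2) * x.2.2 - k * x.2.1)) / (2 * s),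
   ((k + 2) * x.1 - k * x.2.2
      + s * ((k + 2) * x.2.1 * x.1 - (k - 1) * x.2.1 * x.2.2 + x.2.2 ^ 2)) / (2 * s))

/-- From `τ`-variables to `s`-variables. -/
noncomputable def ofBox (s : ℝ) (x : ℝ × ℝ × ℝ) : ℝ × ℝ × ℝ :=
  (x.1 / s, (x.2.1 - 1) / s, x.2.2 * x.2.1 / s)

/-- From `s`-variables to `τ`-variables. -/
noncomputable def toBox (s : ℝ) (x : ℝ × ℝ × ℝ) : ℝ × ℝ × ℝ :=
  (s * x.1, 1 + s * x.2.1, s * x.2.2 / (1 + s * x.2.1))

lemma ofBox_toBox {s : ℝ} (hs : s ≠ 0) {x : ℝ × ℝ × ℝ} (hR : 1 + s * x.2.1 ≠ 0) :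
    ofBox s (toBox s x) = x := by
  obtain ⟨p, r, v⟩ := x
  simp only [ofBox, toBox] at *
  refine Prod.ext ?_ (Prod.ext ?_ ?_)
  · dsimp only; field_simp
  · dsimp only; field_simp; ring
  · dsimp only; field_simp

lemma hasDerivAt_prod3 {f g h : ℝ → ℝ} {a b c t : ℝ} (hf : HasDerivAt f a t)
    (hg : HasDerivAt g b t) (hh : HasDerivAt h c t) :
    HasDerivAt (fun t => (f t, g t, h t)) (a, b, c) t :=
  hf.prodMk (hg.prodMk hh)

lemma ofBox_hasDerivAt (hk : 9 ≤ k) {X : ℝ → ℝ × ℝ × ℝ} {s : ℝ} (hs : 0 < s)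
    (hX : HasDerivAt X (field k (X (Real.log s))) (Real.log s)) :
    HasDerivAt (fun t => ofBox t (X (Real.log t))) (sfield k s (ofBox s (X (Real.log s)))) s := by
  have hl := Real.hasDerivAt_log hs.ne'
  have hc := hX.scomp s hl
  set P := (X (Real.log s)).1 with hP
  set R := (X (Real.log s)).2.1 with hR
  set m := (X (Real.log s)).2.2 with hm
  have h1 : HasDerivAt (fun t => (X (Real.log t)).1) (s⁻¹ * (field k (X (Real.log s))).1) s :=
    (ContinuousLinearMap.fst ℝ ℝ (ℝ × ℝ)).hasFDerivAt.comp_hasDerivAt s hc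
  have h2 : HasDerivAt (fun t => (X (Real.log t)).2.1) (s⁻¹ * (field k (X (Real.log s))).2.1) s :=
    (ContinuousLinearMap.fst ℝ ℝ ℝ).hasFDerivAt.comp_hasDerivAt s
      ((ContinuousLinearMap.snd ℝ ℝ (ℝ × ℝ)).hasFDerivAt.comp_hasDerivAt s hc)
  have h3 : HasDerivAt (fun t => (X (Real.log t)).2.2) (s⁻¹ * (field k (X (Real.log s))).2.2) s :=
    (ContinuousLinearMap.snd ℝ ℝ ℝ).hasFDerivAt.comp_hasDerivAt s
      ((ContinuousLinearMap.snd ℝ ℝ (ℝ × ℝ)).hasFDerivAt.comp_hasDerivAt s hc)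
  refine (hasDerivAt_prod3 (h1.div (hasDerivAt_id s) hs.ne')
    ((h2.sub_const 1).div (hasDerivAt_id s) hs.ne')
    ((h3.mul h2).div (hasDerivAt_id s) hs.ne')).congr_deriv ?_
  have hk2 : k + 2 ≠ 0 := by linarith
  simp only [sfield, ofBox, field, id, ← hP, ← hR, ← hm, Pi.mul_apply]
  refine Prod.ext ?_ (Prod.ext ?_ ?_)
  · dsimp only; field_simp; ring
  · dsimp only; field_simp; ring
  · dsimp only; field_simp; ring

lemma toBox_hasDerivAt (hk : 9 ≤ k) {p r v : ℝ → ℝ} {t : ℝ}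
    (hR : 1 + Real.exp t * r (Real.exp t) ≠ 0)
    (hZ : HasDerivAt (fun s => (p s, r s, v s))
      (sfield k (Real.exp t) (p (Real.exp t), r (Real.exp t), v (Real.exp t))) (Real.exp t)) :
    HasDerivAt (fun t => toBox (Real.exp t) (p (Real.exp t), r (Real.exp t), v (Real.exp t)))
      (field k (toBox (Real.exp t) (p (Real.exp t), r (Real.exp t), v (Real.exp t)))) t := by
  set s := Real.exp t with hs
  have hs0 : s ≠ 0 := (Real.exp_pos t).ne'
  have he := Real.hasDerivAt_exp t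
  have hp : HasDerivAt (fun t => p (Real.exp t)) ((sfield k s (p s, r s, v s)).1 * s) t :=
    ((ContinuousLinearMap.fst ℝ ℝ (ℝ × ℝ)).hasFDerivAt.comp_hasDerivAt s hZ).comp t he
  have hr : HasDerivAt (fun t => r (Real.exp t)) ((sfield k s (p s, r s, v s)).2.1 * s) t :=
    ((ContinuousLinearMap.fst ℝ ℝ ℝ).hasFDerivAt.comp_hasDerivAt s
      ((ContinuousLinearMap.snd ℝ ℝ (ℝ × ℝ)).hasFDerivAt.comp_hasDerivAt s hZ)).comp t he
  have hv : HasDerivAt (fun t => v (Real.exp t)) ((sfield k s (p s, r s, v s)).2.2 * s) t :=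
    ((ContinuousLinearMap.snd ℝ ℝ ℝ).hasFDerivAt.comp_hasDerivAt s
      ((ContinuousLinearMap.snd ℝ ℝ (ℝ × ℝ)).hasFDerivAt.comp_hasDerivAt s hZ)).comp t he
  refine (hasDerivAt_prod3 (he.mul hp) ((he.mul hr).const_add 1)
    ((he.mul hv).div ((he.mul hr).const_add 1) hR)).congr_deriv ?_
  have hk2 : k + 2 ≠ 0 := by linarith
  simp only [sfield, toBox, field, Pi.mul_apply, ← hs]
  refine Prod.ext ?_ (Prod.ext ?_ ?_)
  · dsimp only; field_simp; ring
  · dsimp only; field_simp; ring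
  · dsimp only; field_simp; ring

lemma smooth_of_ode (Z : ℝ → ℝ × ℝ × ℝ)
    (hZ : ∀ s, 0 < s → HasDerivAt Z (sfield k s (Z s)) s) : ContDiffOn ℝ ∞ Z (Ioi 0) := by
  have hd : DifferentiableOn ℝ Z (Ioi 0) := fun s hs =>
    (hZ s hs).differentiableAt.differentiableWithinAt
  refine contDiffOn_infty.2 fun n => ?_
  induction n with
  | zero => exact contDiffOn_zero.2 hd.continuousOn
  | succ n ih =>
    have e : ((n + 1 : ℕ) : WithTop ℕ∞) = (n : WithTop ℕ∞) + 1 := by push_cast; rfl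
    rw [e, contDiffOn_succ_iff_deriv_of_isOpen isOpen_Ioi]
    refine ⟨hd, fun h => absurd h (by simp), ?_⟩
    refine ContDiffOn.congr ?_ fun s hs => (hZ s hs).deriv
    have a1 : ContDiffOn ℝ n (fun s => (Z s).1) (Ioi 0) := contDiff_fst.comp_contDiffOn ih
    have a2 : ContDiffOn ℝ n (fun s => (Z s).2.1) (Ioi 0) :=
      contDiff_fst.comp_contDiffOn (contDiff_snd.comp_contDiffOn ih)
    have a3 : ContDiffOn ℝ n (fun s => (Z s).2.2) (Ioi 0) :=
      contDiff_snd.comp_contDiffOn (contDiff_snd.comp_contDiffOn ih)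
    have a0 : ContDiffOn ℝ n (fun s : ℝ => s) (Ioi 0) := contDiffOn_id
    unfold sfield
    refine ((a1.mul (a2.sub a1)).div_const 2).prodMk ?_
    refine ContDiffOn.prodMk ?_ ?_
    · exact (((contDiffOn_const.mul a2).add a1).add (contDiffOn_const.mul a3)
        |>.add ((a0.mul a2).mul ((a1.add (contDiffOn_const.mul a3)).sub
          (contDiffOn_const.mul a2)))).div (contDiffOn_const.mul a0)
        fun s hs => mul_ne_zero two_ne_zero hs.ne'
    · exact (((contDiffOn_const.mul a1).sub (contDiffOn_const.mul a3)).add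
        (a0.mul ((((contDiffOn_const.mul a2).mul a1).sub ((contDiffOn_const.mul a2).mul a3)).add
          (a3.pow 2)))).div (contDiffOn_const.mul a0) fun s hs => mul_ne_zero two_ne_zero hs.ne'

theorem exists_profile (hb : Box k Rs M) : ∃ δ : ℝ, 0 < δ ∧ ∃ p r v : ℝ → ℝ,
    p 0 = 1 ∧ ContDiffOn ℝ ∞ p (Ioi (-δ)) ∧ ContDiffOn ℝ ∞ r (Ioi (-δ)) ∧
    ContDiffOn ℝ ∞ v (Ioi (-δ)) ∧
    (∀ s ∈ Ioi (-δ),
      HasDerivAt p (p s * (r s - p s) / 2) s ∧
      2 * (s * deriv r s) = -(k + 2) * r s + p s + (k + 3) / (k + 2) * v s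
        + s * r s * (p s + (k + 3) / (k + 2) * v s - k * r s) ∧
      2 * (s * deriv v s) = (k + 2) * p s - k * v s
        + s * ((k + 2) * r s * p s - (k - 1) * r s * v s + v s ^ 2)) ∧
    (∀ s, 0 ≤ s → 0 < p s ∧ 0 < 1 + s * r s) := by
  have hk := hb.nine
  obtain ⟨δ, hδ, p, r, v, hp0, hr0, hv0, cp, cr, cv, hode⟩ := local_solution hk
  have hcont : ∀ {f : ℝ → ℝ}, ContDiffOn ℝ ∞ f (Ioo (-δ) δ) → ContinuousAt f 0 := fun hf =>
    hf.continuousOn.continuousAt (Ioo_mem_nhds (by linarith) hδ)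
  have := hb.hR; have := hb.hM
  have ev : ∀ᶠ s in 𝓝 (0 : ℝ), s < δ ∧ 0 < p s ∧ 0 < r s ∧ 0 < v s ∧ s * p s < 1 ∧
      s * r s < Rs - 1 ∧ s * v s < M := by
    have t : ∀ {f : ℝ → ℝ}, ContinuousAt f 0 → Filter.Tendsto (fun s => s * f s) (𝓝 0) (𝓝 0) :=
      fun hf => by simpa [Pi.mul_def] using (continuousAt_id.mul hf).tendsto
    filter_upwards [gt_mem_nhds hδ, (hcont cp).eventually (lt_mem_nhds (by rw [hp0]; exact one_pos)),
      (hcont cr).eventually (lt_mem_nhds hr0), (hcont cv).eventually (lt_mem_nhds hv0),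
      (t (hcont cp)).eventually (gt_mem_nhds one_pos),
      (t (hcont cr)).eventually (gt_mem_nhds (show (0:ℝ) < Rs - 1 by linarith)),
      (t (hcont cv)).eventually (gt_mem_nhds hb.hM)] with s a b c d e f g
      using ⟨a, b, c, d, e, f, g⟩
  obtain ⟨ε, hε, hball⟩ := Metric.eventually_nhds_iff.1 ev
  set s₁ := ε / 4 with hs₁
  have hs₁0 : 0 < s₁ := by positivity
  have good : ∀ s, 0 ≤ s → s < 4 * s₁ → s < δ ∧ 0 < p s ∧ 0 < r s ∧ 0 < v s ∧ s * p s < 1 ∧
      s * r s < Rs - 1 ∧ s * v s < M := fun s h0 h => hball (by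
    rw [dist_zero_right, Real.norm_of_nonneg h0]; linarith)
  set τ₁ := Real.log s₁ with hτ
  set Y : ℝ → ℝ × ℝ × ℝ :=
    fun t => toBox (Real.exp t) (p (Real.exp t), r (Real.exp t), v (Real.exp t)) with hY
  have hYbox : ∀ t, Real.exp t < 4 * s₁ → InBox Rs M (Y t) := by
    intro t ht
    obtain ⟨-, a, b, c, d, e, f⟩ := good _ (Real.exp_pos t).le ht
    have h1 : 0 < Real.exp t * r (Real.exp t) := mul_pos (Real.exp_pos t) b
    have h2 : 0 < Real.exp t * v (Real.exp t) := mul_pos (Real.exp_pos t) c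
    refine ⟨⟨?_, ?_⟩, ⟨?_, ?_⟩, ?_, ?_⟩ <;> simp only [hY, toBox]
    · exact (mul_pos (Real.exp_pos t) a).le
    · linarith
    · linarith
    · linarith
    · exact div_nonneg h2.le (by linarith)
    · refine (div_le_iff₀ (by linarith)).2 ?_
      nlinarith [mul_pos hb.hM h1]
  have hZ : ∀ s, 0 < s → s < δ →
      HasDerivAt (fun s => (p s, r s, v s)) (sfield k s (p s, r s, v s)) s := by
    intro s h0 h1
    obtain ⟨e1, e2, e3⟩ := hode s ⟨by linarith, h1⟩
    have dr : DifferentiableAt ℝ r s :=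
      (cr.differentiableOn (by simp)).differentiableAt (Ioo_mem_nhds (by linarith) h1)
    have dv : DifferentiableAt ℝ v s :=
      (cv.differentiableOn (by simp)).differentiableAt (Ioo_mem_nhds (by linarith) h1)
    refine (hasDerivAt_prod3 e1 dr.hasDerivAt dv.hasDerivAt).congr_deriv ?_
    refine Prod.ext rfl (Prod.ext ?_ ?_) <;> simp only [sfield] <;>
      rw [eq_div_iff (by positivity)] <;> linarith
  have hYd : ∀ t, Real.exp t < 4 * s₁ → HasDerivAt Y (cfield k Rs M (Y t)) t := by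
    intro t ht
    obtain ⟨hd, -, b, -⟩ := good _ (Real.exp_pos t).le ht
    rw [cfield, clip_eq (hYbox t ht)]
    have : 0 < Real.exp t * r (Real.exp t) := mul_pos (Real.exp_pos t) b
    exact toBox_hasDerivAt hk (by linarith) (hZ _ (Real.exp_pos t) hd)
  obtain ⟨X, hX0, hXd⟩ := global_solution hb τ₁ (Y τ₁)
  have he4 : ∀ t, t ≤ τ₁ + 1 → Real.exp t < 4 * s₁ := by
    intro t ht
    refine lt_of_le_of_lt (Real.exp_le_exp.2 ht) ?_
    rw [Real.exp_add, hτ, Real.exp_log hs₁0]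
    nlinarith [Real.exp_one_lt_three]
  obtain ⟨L, K, -, hK⟩ := cfield_props hb
  have hXY : EqOn X Y (Icc (τ₁ - 3 / 4) (τ₁ + 3 / 4)) := by
    refine ODE_solution_unique_of_mem_Icc (v := fun _ => cfield k Rs M) (s := fun _ => univ)
      (K := K) (t₀ := τ₁) (fun _ _ => hK.lipschitzOnWith) ⟨by linarith, by linarith⟩
      (fun t ht => (hXd t (by linarith [ht.1])).continuousAt.continuousWithinAt)
      (fun t ht => hXd t (by linarith [ht.1])) (fun _ _ => mem_univ _)
      (fun t ht => (hYd t (he4 t (by linarith [ht.2]))).continuousAt.continuousWithinAt)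
      (fun t ht => hYd t (he4 t (by linarith [ht.2]))) (fun _ _ => mem_univ _) hX0
  have hXbox : ∀ t, τ₁ - 3 / 4 ≤ t → InBox Rs M (X t) :=
    invariant_box hb (fun t ht => hXd t (by linarith))
      (by rw [hXY ⟨le_rfl, by linarith⟩]; exact hYbox _ (he4 _ (by linarith)))
  have hXpos : ∀ t, τ₁ - 3 / 4 ≤ t → 0 < (X t).1 :=
    pos_fst hb (fun t ht => hXd t (by linarith)) hXbox (by
      rw [hXY ⟨le_rfl, by linarith⟩]
      obtain ⟨-, a, -⟩ := good _ (Real.exp_pos (τ₁ - 3 / 4)).le (he4 _ (by linarith))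
      simp only [hY, toBox]
      exact mul_pos (Real.exp_pos _) a)
  set sa := Real.exp (τ₁ - 1 / 2) with hsa
  set sb := Real.exp (τ₁ + 1 / 2) with hsb
  have hab : sa < sb := Real.exp_lt_exp.2 (by linarith)
  have hsa0 : 0 < sa := Real.exp_pos _
  have hsbδ : sb < δ := (good _ (Real.exp_pos _).le (he4 _ (by linarith))).1
  set Z : ℝ → ℝ × ℝ × ℝ :=
    fun s => if s < s₁ then (p s, r s, v s) else ofBox s (X (Real.log s)) with hZdef
  have hmid : ∀ s, sa < s → s < sb → ofBox s (X (Real.log s)) = (p s, r s, v s) := by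
    intro s h1 h2
    have h0 : 0 < s := hsa0.trans h1
    have l1 : τ₁ - 1 / 2 < Real.log s := (Real.lt_log_iff_exp_lt h0).2 h1
    have l2 : Real.log s < τ₁ + 1 / 2 := (Real.log_lt_iff_lt_exp h0).2 h2
    rw [hXY ⟨by linarith, by linarith⟩]
    simp only [hY, Real.exp_log h0]
    obtain ⟨-, -, b, -⟩ := good s h0.le (by
      have := he4 (Real.log s) (by linarith); rwa [Real.exp_log h0] at this)
    have : 0 < s * r s := mul_pos h0 b
    exact ofBox_toBox h0.ne' (by simp only; linarith)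
  have hs₁ab : sa < s₁ ∧ s₁ < sb := by
    constructor
    · calc sa < Real.exp τ₁ := Real.exp_lt_exp.2 (by linarith)
        _ = s₁ := Real.exp_log hs₁0
    · calc s₁ = Real.exp τ₁ := (Real.exp_log hs₁0).symm
        _ < sb := Real.exp_lt_exp.2 (by linarith)
  have hZlow : ∀ s, s < sb → Z s = (p s, r s, v s) := by
    intro s h
    simp only [hZdef]
    split_ifs with hh
    · rfl
    · exact hmid s (by linarith [hs₁ab.1]) h
  have hZhigh : ∀ s, sa < s → Z s = ofBox s (X (Real.log s)) := by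
    intro s h
    simp only [hZdef]
    split_ifs with hh
    · exact (hmid s h (hh.trans hs₁ab.2)).symm
    · rfl
  have hZd : ∀ s, 0 < s → HasDerivAt Z (sfield k s (Z s)) s := by
    intro s h0
    by_cases h : s < sb
    · rw [hZlow s h]
      exact (hZ s h0 (h.trans hsbδ)).congr_of_eventuallyEq
        (Filter.eventuallyEq_of_mem (Iio_mem_nhds h) fun t ht => hZlow t ht)
    · have hs : sa < s := by linarith
      have hl : τ₁ - 1 / 2 < Real.log s := (Real.lt_log_iff_exp_lt h0).2 hs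
      rw [hZhigh s hs]
      refine (ofBox_hasDerivAt hk h0 ?_).congr_of_eventuallyEq
        (Filter.eventuallyEq_of_mem (Ioi_mem_nhds hs) fun t ht => hZhigh t ht)
      have := hXd (Real.log s) (by linarith)
      rwa [cfield, clip_eq (hXbox _ (by linarith))] at this
  have hsmooth := smooth_of_ode Z hZd
  have hlowsm : ContDiffOn ℝ ∞ Z (Ioo (-δ) sb) := by
    refine ((cp.mono (Ioo_subset_Ioo_right hsbδ.le)).prodMk
      ((cr.mono (Ioo_subset_Ioo_right hsbδ.le)).prodMk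
        (cv.mono (Ioo_subset_Ioo_right hsbδ.le)))).congr fun s hs => hZlow s hs.2
  have hall : ContDiffOn ℝ ∞ Z (Ioi (-δ)) := by
    intro s hs
    by_cases h : s < sb
    · exact ((hlowsm s ⟨hs, h⟩).contDiffAt (Ioo_mem_nhds hs h)).contDiffWithinAt
    · have h0 : 0 < s := by linarith [hs₁ab.2]
      exact ((hsmooth s h0).contDiffAt (Ioi_mem_nhds h0)).contDiffWithinAt
  refine ⟨δ, hδ, fun s => (Z s).1, fun s => (Z s).2.1, fun s => (Z s).2.2, ?_,
    contDiff_fst.comp_contDiffOn hall, contDiff_fst.comp_contDiffOn (contDiff_snd.comp_contDiffOn hall),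
    contDiff_snd.comp_contDiffOn (contDiff_snd.comp_contDiffOn hall), ?_, ?_⟩
  · simp [hZlow 0 (by linarith [hs₁ab.2]), hp0]
  · intro s hs
    by_cases h : s < sb
    · obtain ⟨e1, e2, e3⟩ := hode s ⟨hs, h.trans hsbδ⟩
      have q : ∀ t ∈ Iio sb, Z t = (p t, r t, v t) := fun t ht => hZlow t ht
      have ep : (fun s => (Z s).1) =ᶠ[𝓝 s] p :=
        Filter.eventuallyEq_of_mem (Iio_mem_nhds h) fun t ht => by simp [q t ht]
      have er : (fun s => (Z s).2.1) =ᶠ[𝓝 s] r :=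
        Filter.eventuallyEq_of_mem (Iio_mem_nhds h) fun t ht => by simp [q t ht]
      have ev' : (fun s => (Z s).2.2) =ᶠ[𝓝 s] v :=
        Filter.eventuallyEq_of_mem (Iio_mem_nhds h) fun t ht => by simp [q t ht]
      rw [er.deriv_eq, ev'.deriv_eq]
      simp only [hZlow s h]
      exact ⟨e1.congr_of_eventuallyEq ep, e2, e3⟩
    · have h0 : 0 < s := by linarith [hs₁ab.2]
      have hd := hZd s h0
      have d1 : HasDerivAt (fun s => (Z s).1) (sfield k s (Z s)).1 s :=
        (ContinuousLinearMap.fst ℝ ℝ (ℝ × ℝ)).hasFDerivAt.comp_hasDerivAt s hd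
      have d2 : HasDerivAt (fun s => (Z s).2.1) (sfield k s (Z s)).2.1 s :=
        (ContinuousLinearMap.fst ℝ ℝ ℝ).hasFDerivAt.comp_hasDerivAt s
          ((ContinuousLinearMap.snd ℝ ℝ (ℝ × ℝ)).hasFDerivAt.comp_hasDerivAt s hd)
      have d3 : HasDerivAt (fun s => (Z s).2.2) (sfield k s (Z s)).2.2 s :=
        (ContinuousLinearMap.snd ℝ ℝ ℝ).hasFDerivAt.comp_hasDerivAt s
          ((ContinuousLinearMap.snd ℝ ℝ (ℝ × ℝ)).hasFDerivAt.comp_hasDerivAt s hd)
      refine ⟨d1, ?_, ?_⟩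
      · rw [d2.deriv]; simp only [sfield]; field_simp
      · rw [d3.deriv]; simp only [sfield]; field_simp
  · intro s hs
    by_cases h : s < sb
    · simp only [hZlow s h]
      obtain ⟨-, a, b, -⟩ := good s hs (h.trans (he4 _ (by linarith)))
      exact ⟨a, by have := mul_nonneg hs b.le; linarith⟩
    · have h0 : 0 < s := by linarith [hs₁ab.2]
      have hsa' : sa < s := by linarith
      have hl : τ₁ - 3 / 4 ≤ Real.log s := by
        have := (Real.lt_log_iff_exp_lt h0).2 hsa'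
        linarith
      simp only [hZhigh s hsa', ofBox]
      refine ⟨div_pos (hXpos _ hl) h0, ?_⟩
      rw [mul_div_cancel₀ _ h0.ne']
      linarith [(hXbox _ hl).2.1.1]

end Vale.Agent.P252
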