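import Mathlib

/-!
Partial derivatives, Hessian and the affine maximal equation on Euclidean space.
-/

namespace Vale.Agent.P252

/-- `hess f x` is the matrix of second partial derivatives `∂ᵢ∂ⱼ f x`. -/
noncomputable def hess {n : ℕ} (f : EuclideanSpace ℝ (Fin n) → ℝ)
    (x : EuclideanSpace ℝ (Fin n)) : Matrix (Fin n) (Fin n) ℝ :=
  Matrix.of fun i j =>
    fderiv ℝ (fun y => fderiv ℝ f y (EuclideanSpace.single j 1)) x (EuclideanSpace.single i 1)

/-- `w = (det D²u) ^ (-(n+1)/(n+2))`. -/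
noncomputable def affineW {n : ℕ} (u : EuclideanSpace ℝ (Fin n) → ℝ)
    (x : EuclideanSpace ℝ (Fin n)) : ℝ :=
  (hess u x).det ^ (-(((n : ℝ) + 1) / ((n : ℝ) + 2)))

/-- The affine maximal operator `∑ Uⁱʲ ∂ᵢⱼ w` with `U = det(D²u) (D²u)⁻¹`. -/
noncomputable def affineMaximal {n : ℕ} (u : EuclideanSpace ℝ (Fin n) → ℝ)
    (x : EuclideanSpace ℝ (Fin n)) : ℝ :=
  ∑ i, ∑ j, ((hess u x).det * (hess u x)⁻¹ i j) * hess (affineW u) x i j

end Vale.Agent.P252
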