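import Mathlib

/-!
Symmetric matrices `α I + β ζζᵀ + γ (ζeᵀ + eζᵀ) + (δ - α) eeᵀ` with `ζ ⊥ e`, `|e| = 1`.
-/

open Matrix

namespace Vale.Agent.P252

variable {ι : Type*} [Fintype ι] [DecidableEq ι]

/-- The structured matrix. -/
def sm (ζ e : ι → ℝ) (α β γ δ : ℝ) : Matrix ι ι ℝ :=
  α • (1 : Matrix ι ι ℝ) + β • vecMulVec ζ ζ + γ • vecMulVec ζ e + γ • vecMulVec e ζ
    + (δ - α) • vecMulVec e e

variable {ζ e : ι → ℝ} {s : ℝ}

lemma sm_transpose (α β γ δ : ℝ) : (sm ζ e α β γ δ)ᵀ = sm ζ e α β γ δ := by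
  ext i j
  simp [sm, vecMulVec_apply, Matrix.one_apply, eq_comm]
  ring

lemma vv_mul (a b c d : ι → ℝ) :
    vecMulVec a b * vecMulVec c d = (b ⬝ᵥ c) • vecMulVec a d := by
  ext i j
  simp only [Matrix.mul_apply, vecMulVec_apply, Matrix.smul_apply, smul_eq_mul, dotProduct,
    Finset.sum_mul]
  exact Finset.sum_congr rfl fun l _ => by ring

lemma sm_mul_eq_one (hζ : ζ ⬝ᵥ ζ = s) (hζe : ζ ⬝ᵥ e = 0) (he : e ⬝ᵥ e = 1)
    {α β γ δ : ℝ} (hα : α ≠ 0) (hΔ : (α + β * s) * δ - γ ^ 2 * s ≠ 0) :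
    sm ζ e α⁻¹ ((γ ^ 2 - β * δ) / (α * ((α + β * s) * δ - γ ^ 2 * s)))
      (-γ / ((α + β * s) * δ - γ ^ 2 * s))
      ((α + β * s) / ((α + β * s) * δ - γ ^ 2 * s)) * sm ζ e α β γ δ = 1 := by
  have heζ : e ⬝ᵥ ζ = 0 := by rw [dotProduct_comm]; exact hζe
  set D := (α + β * s) * δ - γ ^ 2 * s with hD
  simp only [sm, add_mul, mul_add, smul_mul_assoc, mul_smul_comm, one_mul, mul_one, vv_mul,
    hζ, hζe, heζ, he, smul_smul, zero_smul, smul_zero, one_smul]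
  match_scalars <;> (field_simp; try (rw [hD]; ring))

lemma sm_det (hζ : ζ ⬝ᵥ ζ = s) (hζe : ζ ⬝ᵥ e = 0) (he : e ⬝ᵥ e = 1)
    {α β γ δ : ℝ} (hα : α ≠ 0) {m : ℕ} (hm : Fintype.card ι = m + 2) :
    (sm ζ e α β γ δ).det = α ^ m * ((α + β * s) * δ - γ ^ 2 * s) := by
  have heζ : e ⬝ᵥ ζ = 0 := by rw [dotProduct_comm]; exact hζe
  set U : Matrix ι (Fin 2) ℝ := Matrix.of fun i => ![ζ i, e i] with hU
  set V : Matrix (Fin 2) ι ℝ := Matrix.of
    ![fun j => α⁻¹ * (β * ζ j + γ * e j), fun j => α⁻¹ * (γ * ζ j + (δ - α) * e j)] with hV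
  have h1 : sm ζ e α β γ δ = α • (1 + U * V) := by
    ext i j
    simp [sm, hU, hV, Matrix.mul_apply, Fin.sum_univ_two, vecMulVec_apply, Matrix.one_apply]
    field_simp
    split_ifs <;> ring
  have hs : ∀ f : ι → ℝ, ∀ g : ι → ℝ, ∑ i, f i * g i = f ⬝ᵥ g := fun f g => rfl
  have h2 : (V * U) = !![α⁻¹ * (β * s), α⁻¹ * γ; α⁻¹ * (γ * s), α⁻¹ * (δ - α)] := by
    ext i j
    fin_cases i <;> fin_cases j <;>
      simp [hU, hV, Matrix.mul_apply, mul_add, add_mul, Finset.sum_add_distrib, mul_assoc,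
        ← Finset.mul_sum] <;>
      simp only [hs, hζ, hζe, heζ, he] <;> ring
  rw [h1, Matrix.det_smul, Matrix.det_one_add_mul_comm, h2, Matrix.det_fin_two, hm]
  simp [Matrix.one_apply]
  field_simp
  ring

lemma sm_trace_mul (hζ : ζ ⬝ᵥ ζ = s) (hζe : ζ ⬝ᵥ e = 0) (he : e ⬝ᵥ e = 1)
    (α β γ δ a b c d : ℝ) :
    (sm ζ e α β γ δ * sm ζ e a b c d).trace
      = ((Fintype.card ι : ℝ) - 2) * (α * a) + (α + β * s) * (a + b * s) + 2 * γ * c * s
        + δ * d := by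
  have heζ : e ⬝ᵥ ζ = 0 := by rw [dotProduct_comm]; exact hζe
  simp only [sm, add_mul, mul_add, smul_mul_assoc, mul_smul_comm, one_mul, mul_one, vv_mul,
    hζ, hζe, heζ, he, smul_smul, zero_smul, smul_zero, one_smul, trace_add, trace_smul,
    trace_one, trace_zero, trace_vecMulVec, smul_eq_mul, mul_zero, zero_mul]
  ring

lemma sm_posDef (hζ : ζ ⬝ᵥ ζ = s) (hζe : ζ ⬝ᵥ e = 0) (he : e ⬝ᵥ e = 1)
    {α β γ δ : ℝ} (hα : 0 < α) (hδ : 0 < δ) (hΔ : 0 < (α + β * s) * δ - γ ^ 2 * s) :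
    (sm ζ e α β γ δ).PosDef := by
  have heζ : e ⬝ᵥ ζ = 0 := by rw [dotProduct_comm]; exact hζe
  refine Matrix.PosDef.of_dotProduct_mulVec_pos ?_ fun x hx => ?_
  · show (sm ζ e α β γ δ)ᴴ = _
    rw [conjTranspose_eq_transpose_of_trivial, sm_transpose]
  set c := ζ ⬝ᵥ x with hc
  set b := e ⬝ᵥ x with hb
  have hq : star x ⬝ᵥ (sm ζ e α β γ δ *ᵥ x)
      = α * (x ⬝ᵥ x) + β * c ^ 2 + 2 * γ * b * c + (δ - α) * b ^ 2 := by
    simp [sm, add_mulVec, smul_mulVec, vecMulVec_mulVec, dotProduct_comm x ζ, dotProduct_comm x e,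
      ← hc, ← hb]
    ring
  rw [hq]
  have hxx : 0 < x ⬝ᵥ x := by
    have := dotProduct_star_self_pos_iff.2 hx
    simpa using this
  -- orthogonal projections
  have key : b ^ 2 * s + c ^ 2 ≤ (x ⬝ᵥ x) * s := by
    rcases eq_or_ne s 0 with h0 | h0
    · have hz : ζ = 0 := by
        rw [← hζ] at h0
        exact dotProduct_self_eq_zero.1 h0
      simp [hc, hz, h0]
    · have hnn : 0 ≤ s := by
        rw [← hζ]; exact Finset.sum_nonneg fun i _ => mul_self_nonneg _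
      have h := Finset.sum_nonneg (s := Finset.univ)
        fun i (_ : i ∈ Finset.univ) => mul_self_nonneg ((s • (x - b • e) - c • ζ) i)
      have h' : 0 ≤ (s • (x - b • e) - c • ζ) ⬝ᵥ (s • (x - b • e) - c • ζ) := h
      simp only [sub_dotProduct, dotProduct_sub, smul_dotProduct, dotProduct_smul, smul_eq_mul,
        hζ, hζe, heζ, he, dotProduct_comm x ζ, dotProduct_comm x e, ← hc, ← hb] at h'
      have hspos : 0 < s := lt_of_le_of_ne hnn (Ne.symm h0)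
      by_contra hne
      push Not at hne
      nlinarith [mul_lt_mul_of_pos_left hne hspos]
  rcases eq_or_ne c 0 with hc0 | hc0
  · rw [hc0]
    rcases eq_or_ne b 0 with hb0 | hb0
    · rw [hb0]; nlinarith
    · have h1 : b ^ 2 ≤ x ⬝ᵥ x := by
        have h := Finset.sum_nonneg (s := Finset.univ)
          fun i (_ : i ∈ Finset.univ) => mul_self_nonneg ((x - b • e) i)
        have h' : 0 ≤ (x - b • e) ⬝ᵥ (x - b • e) := h
        simp only [sub_dotProduct, dotProduct_sub, smul_dotProduct, dotProduct_smul, smul_eq_mul,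
          he, dotProduct_comm x e, ← hb] at h'
        nlinarith
      have : 0 < δ * b ^ 2 := mul_pos hδ (sq_pos_of_ne_zero hb0)
      nlinarith [mul_le_mul_of_nonneg_left h1 hα.le]
  · have hspos : 0 < s := by
      have hnn : 0 ≤ s := by rw [← hζ]; exact Finset.sum_nonneg fun i _ => mul_self_nonneg _
      refine lt_of_le_of_ne hnn fun h0 => hc0 ?_
      have hz : ζ = 0 := dotProduct_self_eq_zero.1 (hζ.trans h0.symm)
      simp [hc, hz]
    refine pos_of_mul_pos_left (b := s * δ) ?_ (by positivity)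
    have h1 := mul_le_mul_of_nonneg_left key (mul_nonneg hα.le hδ.le)
    nlinarith [sq_nonneg (δ * s * b + γ * s * c), mul_pos hΔ (sq_pos_of_ne_zero hc0)]

end Vale.Agent.P252
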