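import Mathlib
import Vale.Agent.P252.Glue
import Vale.Agent.P252.Setup
import Vale.Agent.P252.Structured

/-!
The graph `u(z, x) = √(Φ(|z|²)² + x²)` built from the profile, and the affine maximal equation.
-/

open scoped ContDiff Topology RealInnerProductSpace
open Set Matrix

namespace Vale.Agent.P252

variable {k : ℕ}

local instance : Fact (0 < k + 1) := ⟨Nat.succ_pos k⟩

/-- The last coordinate. -/
noncomputable def lastC (k : ℕ) : EuclideanSpace ℝ (Fin (k + 1)) →L[ℝ] ℝ :=
  EuclideanSpace.proj (Fin.last k)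

/-- The squared norm of the first `k` coordinates. -/
noncomputable def radSq (y : EuclideanSpace ℝ (Fin (k + 1))) : ℝ := ‖y‖ ^ 2 - lastC k y ^ 2

/-- The derivative of `radSq`. -/
noncomputable def radD (y : EuclideanSpace ℝ (Fin (k + 1))) :
    EuclideanSpace ℝ (Fin (k + 1)) →L[ℝ] ℝ :=
  2 • innerSL ℝ y - (2 * lastC k y) • lastC k

/-- The vector of the first `k` coordinates. -/
def zeta (y : EuclideanSpace ℝ (Fin (k + 1))) : Fin (k + 1) → ℝ :=
  fun i => if i = Fin.last k then 0 else y i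

/-- The last unit vector. -/
def eLast (k : ℕ) : Fin (k + 1) → ℝ := fun i => if i = Fin.last k then 1 else 0

lemma lastC_apply (y : EuclideanSpace ℝ (Fin (k + 1))) : lastC k y = y (Fin.last k) := rfl

lemma zeta_dot (y : EuclideanSpace ℝ (Fin (k + 1))) : zeta y ⬝ᵥ zeta y = radSq y := by
  rw [radSq, EuclideanSpace.norm_sq_eq, Fin.sum_univ_castSucc, lastC_apply]
  simp only [dotProduct, zeta, Fin.sum_univ_castSucc, Fin.castSucc_ne_last, if_false, if_true,
    Real.norm_eq_abs, sq_abs]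
  simp [sq]

lemma radSq_nonneg (y : EuclideanSpace ℝ (Fin (k + 1))) : 0 ≤ radSq y := by
  rw [← zeta_dot]; exact Finset.sum_nonneg fun i _ => mul_self_nonneg _

lemma zeta_eLast (y : EuclideanSpace ℝ (Fin (k + 1))) : zeta y ⬝ᵥ eLast k = 0 := by
  refine Finset.sum_eq_zero fun i _ => ?_
  by_cases h : i = Fin.last k <;> simp [zeta, eLast, h]

lemma eLast_eLast : eLast k ⬝ᵥ eLast k = 1 := by simp [dotProduct, eLast]

lemma radSq_hasFDerivAt (y : EuclideanSpace ℝ (Fin (k + 1))) :
    HasFDerivAt radSq (radD y) y := by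
  refine ((hasStrictFDerivAt_norm_sq y).hasFDerivAt.fun_sub
    ((lastC k).hasFDerivAt.pow 2)).congr_fderiv ?_
  ext v
  simp [radD]

lemma radD_single (y : EuclideanSpace ℝ (Fin (k + 1))) (j : Fin (k + 1)) :
    radD y (EuclideanSpace.single j (1 : ℝ)) = 2 * zeta y j := by
  simp only [radD, _root_.sub_apply, _root_.smul_apply, innerSL_apply_apply,
    EuclideanSpace.inner_single_right, lastC_apply, zeta, smul_eq_mul, nsmul_eq_mul]
  by_cases h : j = Fin.last k
  · subst h; simp
  · simp [h, Ne.symm h]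

lemma lastC_single (j : Fin (k + 1)) :
    lastC k (EuclideanSpace.single j (1 : ℝ)) = eLast k j := by
  simp [lastC_apply, eLast, eq_comm]

/-- A coordinate of `zeta`. -/
noncomputable def zetaC (k : ℕ) (j : Fin (k + 1)) : EuclideanSpace ℝ (Fin (k + 1)) →L[ℝ] ℝ :=
  if j = Fin.last k then 0 else EuclideanSpace.proj j

lemma zetaC_apply (j : Fin (k + 1)) (y : EuclideanSpace ℝ (Fin (k + 1))) :
    zetaC k j y = zeta y j := by
  by_cases h : j = Fin.last k <;> simp [zetaC, zeta, h]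

/-- Hessian of a function of `radSq` and the last coordinate. -/
lemma hess_structured {f A B : EuclideanSpace ℝ (Fin (k + 1)) → ℝ}
    (hf : ∀ y, HasFDerivAt f ((A y / 2) • radD y + B y • lastC k) y)
    {y : EuclideanSpace ℝ (Fin (k + 1))} {As Ax Bx : ℝ}
    (hA : HasFDerivAt A (As • radD y + Ax • lastC k) y)
    (hB : HasFDerivAt B ((Ax / 2) • radD y + Bx • lastC k) y) :
    hess f y = sm (zeta y) (eLast k) (A y) (2 * As) Ax Bx := by
  ext i j
  have e : (fun y => fderiv ℝ f y (EuclideanSpace.single j 1))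
      = fun y => A y * zetaC k j y + B y * eLast k j := by
    funext w
    rw [(hf w).fderiv, zetaC_apply]
    simp only [_root_.add_apply, _root_.smul_apply, radD_single, lastC_single, smul_eq_mul]
    ring
  show fderiv ℝ (fun y => fderiv ℝ f y (EuclideanSpace.single j 1)) y _ = _
  rw [e, ((hA.fun_mul (zetaC k j).hasFDerivAt).fun_add (hB.mul_const (eLast k j))).fderiv]
  simp only [_root_.add_apply, _root_.smul_apply, radD_single, lastC_single, smul_eq_mul,
    zetaC_apply, sm, Matrix.add_apply, Matrix.smul_apply, Matrix.one_apply, vecMulVec_apply]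
  have hz : zeta (EuclideanSpace.single i (1 : ℝ)) j
      = (if i = j then 1 else 0) - eLast k i * eLast k j := by
    by_cases hi : i = Fin.last k <;> by_cases hj : j = Fin.last k <;>
      by_cases hij : i = j <;> simp_all [zeta, eLast, eq_comm]
  rw [hz]
  ring

/-- The scalar identity behind the affine maximal equation. -/
lemma scalar_identity (k M : ℝ) {q p r v v' R x s : ℝ} (hq : q ≠ 0) (hp : p ≠ 0)
    (hs : 1 + s * r ≠ 0) (hR : R ≠ 0) (hsq : R ^ 2 = q + x ^ 2)
    (hv : 2 * (s * v') = (k + 2) * p - k * v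
      + s * ((k + 2) * r * p - (k - 1) * r * v + v ^ 2)) :
    (k + 1 - 2) * ((q * p / R)⁻¹ * -(M * ((k + 2) * p * x ^ 2 + v * R ^ 2)))
      + q / R ^ 3 / (q ^ 2 * p * (1 + s * r) / R ^ 4)
        * (-(M * ((k + 2) * p * x ^ 2 + v * R ^ 2))
          + 2 * -(M * ((k * q * p / (2 * R ^ 2) - ((k + 2) * p + v) / 2)
              * ((k + 2) * p * x ^ 2 + v * R ^ 2)
            + (k + 2) * (p * (r - p) / 2) * x ^ 2 + v' * R ^ 2 + v * (q * p))) * s)
      + 2 * (-(-(q * p * x) / R ^ 3) / (q ^ 2 * p * (1 + s * r) / R ^ 4))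
        * (2 * ((k + 2) * x * M * (k * q * p / (2 * R ^ 2) - ((k + 2) * p + v) / 2))) * s
      + (q * p / R + 2 * (q * p * (r + p) / (2 * R) - q ^ 2 * p ^ 2 / (2 * R ^ 3)) * s)
          / (q ^ 2 * p * (1 + s * r) / R ^ 4)
        * ((k + 2) * M * (1 + k * x ^ 2 / R ^ 2)) = 0 := by
  have e1 : 2 * -(M * ((k * q * p / (2 * R ^ 2) - ((k + 2) * p + v) / 2)
              * ((k + 2) * p * x ^ 2 + v * R ^ 2)
            + (k + 2) * (p * (r - p) / 2) * x ^ 2 + v' * R ^ 2 + v * (q * p))) * s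
      = -(2 * M * (((k * q * p / (2 * R ^ 2) - ((k + 2) * p + v) / 2)
              * ((k + 2) * p * x ^ 2 + v * R ^ 2)
            + (k + 2) * (p * (r - p) / 2) * x ^ 2 + v * (q * p)) * s
          + ((k + 2) * p - k * v + s * ((k + 2) * r * p - (k - 1) * r * v + v ^ 2)) / 2 * R ^ 2)) := by
    rw [← hv]; ring
  have e2 : 2 * (-(-(q * p * x) / R ^ 3) / (q ^ 2 * p * (1 + s * r) / R ^ 4))
        * (2 * ((k + 2) * x * M * (k * q * p / (2 * R ^ 2) - ((k + 2) * p + v) / 2))) * s
      = 4 * (q * p / R ^ 3 / (q ^ 2 * p * (1 + s * r) / R ^ 4)) * (k + 2) * M * x ^ 2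
        * (k * q * p / (2 * R ^ 2) - ((k + 2) * p + v) / 2) * s := by ring
  rw [e1, e2, show x ^ 2 = R ^ 2 - q by linarith]
  field_simp
  ring

section Profile

variable (φ p r v : ℝ → ℝ)

/-- The graph. -/
noncomputable def graphU (y : EuclideanSpace ℝ (Fin (k + 1))) : ℝ :=
  Real.sqrt (Real.exp (2 * φ (radSq y)) + lastC k y ^ 2)

/-- The radial factor of `w`. -/
noncomputable def omega (k : ℕ) (s : ℝ) : ℝ :=
  Real.exp (-(((k : ℝ) + 2) / ((k : ℝ) + 3)) *
    (2 * ((k : ℝ) + 1) * φ s + (k : ℝ) * Real.log (p s) + Real.log (1 + s * r s)))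

/-- Properties of the profile used by the computation. -/
structure IsProfile (k : ℕ) : Prop where
  φd : ∀ s, 0 ≤ s → HasDerivAt φ (p s / 2) s
  pd' : ∀ s, 0 ≤ s → HasDerivAt p (p s * (r s - p s) / 2) s
  rd : ∀ s, 0 ≤ s → DifferentiableAt ℝ r s
  vd : ∀ s, 0 ≤ s → DifferentiableAt ℝ v s
  req : ∀ s, 0 ≤ s → 2 * (s * deriv r s) = -((k : ℝ) + 2) * r s + p s
    + ((k : ℝ) + 3) / ((k : ℝ) + 2) * v s
    + s * r s * (p s + ((k : ℝ) + 3) / ((k : ℝ) + 2) * v s - (k : ℝ) * r s)
  veq : ∀ s, 0 ≤ s → 2 * (s * deriv v s) = ((k : ℝ) + 2) * p s - (k : ℝ) * v s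
    + s * (((k : ℝ) + 2) * r s * p s - ((k : ℝ) - 1) * r s * v s + v s ^ 2)
  pos : ∀ s, 0 ≤ s → 0 < p s ∧ 0 < 1 + s * r s

variable {φ p r v}

lemma graphU_pos (y : EuclideanSpace ℝ (Fin (k + 1))) : 0 < graphU φ y :=
  Real.sqrt_pos.2 (by positivity)

lemma graphU_sq (y : EuclideanSpace ℝ (Fin (k + 1))) :
    graphU φ y ^ 2 = Real.exp (2 * φ (radSq y)) + lastC k y ^ 2 :=
  Real.sq_sqrt (by positivity)

variable (h : IsProfile φ p r v k)
include h

lemma exp_hasFDerivAt (y : EuclideanSpace ℝ (Fin (k + 1))) :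
    HasFDerivAt (fun y => Real.exp (2 * φ (radSq y)))
      ((Real.exp (2 * φ (radSq y)) * p (radSq y)) • radD y) y := by
  have h1 := (((h.φd _ (radSq_nonneg y)).const_mul 2).exp).comp_hasFDerivAt y (radSq_hasFDerivAt y)
  refine h1.congr_fderiv ?_
  congr 1
  ring

lemma graphU_hasFDerivAt (y : EuclideanSpace ℝ (Fin (k + 1))) :
    HasFDerivAt (graphU φ) ((Real.exp (2 * φ (radSq y)) * p (radSq y) / graphU φ y / 2) • radD y
      + (lastC k y / graphU φ y) • lastC k) y := by
  have h1 := ((exp_hasFDerivAt h y).fun_add ((lastC k).hasFDerivAt.pow 2)).sqrt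
    (show Real.exp (2 * φ (radSq y)) + lastC k y ^ 2 ≠ 0 by positivity)
  refine h1.congr_fderiv ?_
  have hR := (graphU_pos (φ := φ) y).ne'
  ext w
  simp [graphU] at hR ⊢
  field_simp

lemma graphU_pow_hasFDerivAt (n : ℕ) (y : EuclideanSpace ℝ (Fin (k + 1))) :
    HasFDerivAt (fun y => graphU φ y ^ n)
      (((n : ℝ) * graphU φ y ^ n / graphU φ y ^ 2) •
        ((Real.exp (2 * φ (radSq y)) * p (radSq y) / 2) • radD y + lastC k y • lastC k)) y := by
  refine ((graphU_hasFDerivAt h y).pow n).congr_fderiv ?_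
  have hR := (graphU_pos (φ := φ) y).ne'
  rcases n with _ | n
  · simp
  · ext w
    simp [pow_succ]
    field_simp

lemma hess_graphU (y : EuclideanSpace ℝ (Fin (k + 1))) :
    hess (graphU φ) y = sm (zeta y) (eLast k)
      (Real.exp (2 * φ (radSq y)) * p (radSq y) / graphU φ y)
      (2 * (Real.exp (2 * φ (radSq y)) * p (radSq y) * (r (radSq y) + p (radSq y))
          / (2 * graphU φ y)
        - Real.exp (2 * φ (radSq y)) ^ 2 * p (radSq y) ^ 2 / (2 * graphU φ y ^ 3)))
      (-(Real.exp (2 * φ (radSq y)) * p (radSq y) * lastC k y) / graphU φ y ^ 3)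
      (Real.exp (2 * φ (radSq y)) / graphU φ y ^ 3) := by
  have hR := (graphU_pos (φ := φ) y).ne'
  have hsq := graphU_sq (φ := φ) y
  refine hess_structured (A := fun y => Real.exp (2 * φ (radSq y)) * p (radSq y) / graphU φ y)
    (B := fun y => lastC k y / graphU φ y) (graphU_hasFDerivAt h) ?_ ?_
  · have hp := (h.pd' _ (radSq_nonneg y)).comp_hasFDerivAt y (radSq_hasFDerivAt y)
    have := ((exp_hasFDerivAt h y).fun_mul hp).fun_mul
      ((hasDerivAt_inv hR).comp_hasFDerivAt y (graphU_hasFDerivAt h y))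
    simp only [div_eq_mul_inv] at this ⊢
    refine this.congr_fderiv ?_
    ext w
    simp
    field_simp
    ring
  · have := (lastC k).hasFDerivAt.fun_mul
      ((hasDerivAt_inv hR).comp_hasFDerivAt y (graphU_hasFDerivAt h y))
    simp only [div_eq_mul_inv] at this ⊢
    refine this.congr_fderiv ?_
    ext w
    simp
    field_simp
    linear_combination (2 * lastC k w) * hsq

lemma delta_eq (y : EuclideanSpace ℝ (Fin (k + 1))) :
    (Real.exp (2 * φ (radSq y)) * p (radSq y) / graphU φ y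
      + 2 * (Real.exp (2 * φ (radSq y)) * p (radSq y) * (r (radSq y) + p (radSq y))
          / (2 * graphU φ y)
        - Real.exp (2 * φ (radSq y)) ^ 2 * p (radSq y) ^ 2 / (2 * graphU φ y ^ 3)) * radSq y)
      * (Real.exp (2 * φ (radSq y)) / graphU φ y ^ 3)
      - (-(Real.exp (2 * φ (radSq y)) * p (radSq y) * lastC k y) / graphU φ y ^ 3) ^ 2 * radSq y
      = Real.exp (2 * φ (radSq y)) ^ 2 * p (radSq y) * (1 + radSq y * r (radSq y))
          / graphU φ y ^ 4 := by
  have hR := (graphU_pos (φ := φ) y).ne'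
  have hsq := graphU_sq (φ := φ) y
  field_simp
  linear_combination (p (radSq y) ^ 2 * radSq y) * hsq

lemma posDef_graphU (y : EuclideanSpace ℝ (Fin (k + 1))) : (hess (graphU φ) y).PosDef := by
  rw [hess_graphU h y]
  obtain ⟨hp, hR⟩ := h.pos _ (radSq_nonneg y)
  have := graphU_pos (φ := φ) y
  refine sm_posDef (zeta_dot y) (zeta_eLast y) eLast_eLast (by positivity) (by positivity) ?_
  rw [delta_eq h y]
  positivity

lemma omega_hasDerivAt {s : ℝ} (hs : 0 ≤ s) :
    HasDerivAt (omega φ p r k) (-(omega φ p r k s) * (((k : ℝ) + 2) * p s + v s) / 2) s := by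
  obtain ⟨hp, hR⟩ := h.pos s hs
  have h1 := (((h.φd s hs).const_mul (2 * ((k : ℝ) + 1))).fun_add
      (((h.pd' s hs).log hp.ne').const_mul (k : ℝ))).fun_add
    ((((hasDerivAt_id s).fun_mul (h.rd s hs).hasDerivAt).const_add 1).log hR.ne')
  have h2 : HasDerivAt (omega φ p r k) _ s := ((h1.const_mul (-(((k : ℝ) + 2) / ((k : ℝ) + 3)))).exp)
  refine h2.congr_deriv ?_
  have e : 1 * r s + s * deriv r s
      = (1 + s * r s) * (p s + ((k : ℝ) + 3) / ((k : ℝ) + 2) * v s - (k : ℝ) * r s) / 2 := by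
    linarith [h.req s hs]
  simp only [id, omega, e]
  field_simp
  ring

lemma det_graphU (hk : 1 ≤ k) (y : EuclideanSpace ℝ (Fin (k + 1))) :
    (hess (graphU φ) y).det = Real.exp (2 * φ (radSq y)) ^ (k + 1) * p (radSq y) ^ k
      * (1 + radSq y * r (radSq y)) / graphU φ y ^ (k + 3) := by
  obtain ⟨m, rfl⟩ : ∃ m, k = m + 1 := ⟨k - 1, by omega⟩
  obtain ⟨hp, -⟩ := h.pos _ (radSq_nonneg y)
  have hR := graphU_pos (φ := φ) y
  rw [hess_graphU h y, sm_det (zeta_dot y) (zeta_eLast y) eLast_eLast (by positivity) (m := m)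
    (by simp), delta_eq h y, div_pow, mul_pow]
  field_simp
  ring

lemma affineW_graphU (hk : 1 ≤ k) :
    affineW (graphU φ) = fun y : EuclideanSpace ℝ (Fin (k + 1)) =>
      graphU φ y ^ (k + 2) * omega φ p r k (radSq y) := by
  funext y
  obtain ⟨hp, hR⟩ := h.pos _ (radSq_nonneg y)
  have hU := graphU_pos (φ := φ) y
  have hden : (k : ℝ) + 3 ≠ 0 := by positivity
  rw [affineW, det_graphU h hk, Real.rpow_def_of_pos (by positivity),
    ← Real.exp_log (pow_pos hU (k + 2)), omega, ← Real.exp_add]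
  congr 1
  rw [Real.log_div (by positivity) (by positivity), Real.log_mul (by positivity) hR.ne',
    Real.log_mul (by positivity) (by positivity), Real.log_pow, Real.log_pow, Real.log_pow,
    Real.log_pow, Real.log_exp]
  push_cast
  rw [show (k : ℝ) + 1 + 1 = (k : ℝ) + 2 by ring, show (k : ℝ) + 1 + 2 = (k : ℝ) + 3 by ring]
  field_simp
  ring

lemma hess_affineW (hk : 1 ≤ k) (y : EuclideanSpace ℝ (Fin (k + 1))) :
    hess (affineW (graphU φ)) y = sm (zeta y) (eLast k)
      (-(graphU φ y ^ k * omega φ p r k (radSq y)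
        * (((k : ℝ) + 2) * p (radSq y) * lastC k y ^ 2 + v (radSq y) * graphU φ y ^ 2)))
      (2 * -(graphU φ y ^ k * omega φ p r k (radSq y)
        * (((k : ℝ) * Real.exp (2 * φ (radSq y)) * p (radSq y) / (2 * graphU φ y ^ 2)
              - (((k : ℝ) + 2) * p (radSq y) + v (radSq y)) / 2)
            * (((k : ℝ) + 2) * p (radSq y) * lastC k y ^ 2 + v (radSq y) * graphU φ y ^ 2)
          + ((k : ℝ) + 2) * (p (radSq y) * (r (radSq y) - p (radSq y)) / 2) * lastC k y ^ 2
          + deriv v (radSq y) * graphU φ y ^ 2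
          + v (radSq y) * (Real.exp (2 * φ (radSq y)) * p (radSq y)))))
      (2 * (((k : ℝ) + 2) * lastC k y * (graphU φ y ^ k * omega φ p r k (radSq y))
        * ((k : ℝ) * Real.exp (2 * φ (radSq y)) * p (radSq y) / (2 * graphU φ y ^ 2)
              - (((k : ℝ) + 2) * p (radSq y) + v (radSq y)) / 2)))
      (((k : ℝ) + 2) * (graphU φ y ^ k * omega φ p r k (radSq y))
        * (1 + (k : ℝ) * lastC k y ^ 2 / graphU φ y ^ 2)) := by
  rw [affineW_graphU h hk]
  have hR := (graphU_pos (φ := φ) y).ne'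
  have hsq := graphU_sq (φ := φ) y
  have hω : ∀ w : EuclideanSpace ℝ (Fin (k + 1)),
      HasFDerivAt (fun y => omega φ p r k (radSq y))
        ((-(omega φ p r k (radSq w)) * (((k : ℝ) + 2) * p (radSq w) + v (radSq w)) / 2) • radD w) w :=
    fun w => (omega_hasDerivAt h (radSq_nonneg w)).comp_hasFDerivAt w (radSq_hasFDerivAt w)
  refine hess_structured
    (A := fun y => -(graphU φ y ^ k * omega φ p r k (radSq y)
      * (((k : ℝ) + 2) * p (radSq y) * lastC k y ^ 2 + v (radSq y) * graphU φ y ^ 2)))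
    (B := fun y => ((k : ℝ) + 2) * lastC k y * (graphU φ y ^ k * omega φ p r k (radSq y)))
    (fun w => ?_) ?_ ?_
  · have hw := (graphU_pos (φ := φ) w).ne'
    have hsqw := graphU_sq (φ := φ) w
    refine ((graphU_pow_hasFDerivAt h (k + 2) w).fun_mul (hω w)).congr_fderiv ?_
    ext z
    simp [pow_add]
    field_simp
    linear_combination (-(omega φ p r k (radSq w)) * ((k : ℝ) + 2) * p (radSq w) * radD w z) * hsqw
  · have hp := (h.pd' _ (radSq_nonneg y)).comp_hasFDerivAt y (radSq_hasFDerivAt y)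
    have hv := (h.vd _ (radSq_nonneg y)).hasDerivAt.comp_hasFDerivAt y (radSq_hasFDerivAt y)
    have h1 := ((hp.const_mul ((k : ℝ) + 2)).fun_mul ((lastC k).hasFDerivAt.pow 2)).fun_add
      (hv.fun_mul (graphU_pow_hasFDerivAt h 2 y))
    have h2 := (((graphU_pow_hasFDerivAt h k y).fun_mul (hω y)).fun_mul h1).fun_neg
    refine h2.congr_fderiv ?_
    ext z
    simp
    field_simp
    linear_combination (omega φ p r k (radSq y) * (2 * ((k : ℝ) + 2) * lastC k y * lastC k z * (k : ℝ) * p (radSq y))) * hsq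
  · have h2 := ((lastC k).hasFDerivAt.const_mul ((k : ℝ) + 2)).fun_mul
      ((graphU_pow_hasFDerivAt h k y).fun_mul (hω y))
    refine h2.congr_fderiv ?_
    ext z
    simp
    field_simp
    ring

theorem affineMaximal_graphU (hk : 1 ≤ k) (y : EuclideanSpace ℝ (Fin (k + 1))) :
    affineMaximal (graphU φ) y = 0 := by
  obtain ⟨hp, hR1⟩ := h.pos _ (radSq_nonneg y)
  have hU := graphU_pos (φ := φ) y
  have hsq := graphU_sq (φ := φ) y
  have hveq := h.veq _ (radSq_nonneg y)
  have hdelta := delta_eq h y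
  unfold affineMaximal
  rw [hess_graphU h y, hess_affineW h hk y]
  set q := Real.exp (2 * φ (radSq y)) with hq
  set R := graphU φ y with hRdef
  set x := lastC k y with hx
  set s := radSq y with hs
  have hq0 : 0 < q := Real.exp_pos _
  set α := q * p s / R with hα
  have hα0 : α ≠ 0 := by positivity
  set β := 2 * (q * p s * (r s + p s) / (2 * R) - q ^ 2 * p s ^ 2 / (2 * R ^ 3)) with hβ
  set γ := -(q * p s * x) / R ^ 3 with hγ
  set d := q / R ^ 3 with hd
  have hΔ0 : (α + β * s) * d - γ ^ 2 * s ≠ 0 := by rw [hdelta]; positivity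
  set N := sm (zeta y) (eLast k)
      (-(R ^ k * omega φ p r k s * (((k : ℝ) + 2) * p s * x ^ 2 + v s * R ^ 2))) _ _ _ with hN
  have hinv := Matrix.inv_eq_left_inv (sm_mul_eq_one (β := β) (γ := γ) (δ := d)
    (zeta_dot y) (zeta_eLast y) eLast_eLast hα0 hΔ0)
  rw [hinv]
  simp only [mul_assoc, ← Finset.mul_sum]
  refine mul_eq_zero_of_right _ ?_
  have htr : ∀ A : Matrix (Fin (k + 1)) (Fin (k + 1)) ℝ,
      ∑ i, ∑ j, A i j * N i j = (A * Nᵀ).trace := fun A => by
    simp [Matrix.trace, Matrix.mul_apply]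
  rw [htr, hN, sm_transpose, sm_trace_mul (zeta_dot y) (zeta_eLast y) eLast_eLast]
  simp only [Fintype.card_fin, ← hs]
  rw [show α⁻¹ + (γ ^ 2 - β * d) / (α * ((α + β * s) * d - γ ^ 2 * s)) * s
      = d / ((α + β * s) * d - γ ^ 2 * s) by
        generalize hD : (α + β * s) * d - γ ^ 2 * s = D at hΔ0 ⊢
        field_simp
        rw [← hD]; ring, hdelta]
  rw [hα, hβ, hγ, hd]
  push_cast
  exact scalar_identity (k : ℝ) (R ^ k * omega φ p r k s) hq0.ne' hp.ne' hR1.ne' hU.ne' hsq hveq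

end Profile

end Vale.Agent.P252
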