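import Mathlib
import Vale.Agent.P252.Graph

/-!
Entire non-quadratic smooth solutions of the affine maximal equation in every dimension `n ≥ 10`.
-/

open scoped ContDiff Topology
open Set

namespace Vale.Agent.P252

lemma exists_box (k : ℕ) (hk : 9 ≤ k) : ∃ Rs M : ℝ, Box (k : ℝ) Rs M := by
  rcases (show k = 9 ∨ k = 10 ∨ 11 ≤ k by omega) with rfl | rfl | h
  · exact ⟨7 / 2, 33 / 7, by norm_num, by norm_num, by norm_num, by norm_num, by norm_num,
      by norm_num⟩
  · exact ⟨11 / 5, 369 / 100, by norm_num, by norm_num, by norm_num, by norm_num, by norm_num,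
      by norm_num⟩
  · have hk' : (11 : ℝ) ≤ k := by exact_mod_cast h
    refine ⟨2, ((k : ℝ) + 2) / ((k : ℝ) + 3) * ((k : ℝ) - 3) / 2, by linarith, by norm_num,
      ?_, ?_, ?_, ?_⟩
    · exact div_pos (mul_pos (div_pos (by linarith) (by linarith)) (by linarith)) two_pos
    · have h1 : ((k : ℝ) + 2) / ((k : ℝ) + 3) ≤ 1 := by rw [div_le_one] <;> linarith
      have h2 := mul_le_mul_of_nonneg_right h1 (show (0 : ℝ) ≤ (k : ℝ) - 3 by linarith)
      linarith
    · field_simp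
      ring_nf
      linarith
    · have h1 : 13 / 14 ≤ ((k : ℝ) + 2) / ((k : ℝ) + 3) := by
        rw [div_le_div_iff₀] <;> linarith
      have h2 := mul_le_mul_of_nonneg_right h1 (show (0 : ℝ) ≤ (k : ℝ) - 3 by linarith)
      set M := ((k : ℝ) + 2) / ((k : ℝ) + 3) * ((k : ℝ) - 3) / 2 with hM
      have h3 : 0 ≤ M ^ 2 * 2 / ((k : ℝ) + 2) := by positivity
      have h4 : (13 / 28 * ((k : ℝ) - 3)) * (k : ℝ) ≤ M * (k : ℝ) :=
        mul_le_mul_of_nonneg_right (by rw [hM]; linarith) (by linarith)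
      nlinarith

/-- The function `φ`. -/
noncomputable def primitive (p : ℝ → ℝ) (s : ℝ) : ℝ := ∫ t in (0 : ℝ)..s, p t / 2

lemma primitive_smooth {p : ℝ → ℝ} {δ : ℝ} (hδ : 0 < δ) (hp : ContDiffOn ℝ ∞ p (Ioi (-δ))) :
    (∀ s ∈ Ioi (-δ), HasDerivAt (primitive p) (p s / 2) s) ∧
      ContDiffOn ℝ ∞ (primitive p) (Ioi (-δ)) := by
  have hc : ContinuousOn (fun t => p t / 2) (Ioi (-δ)) := hp.continuousOn.div_const 2
  have hd : ∀ s ∈ Ioi (-δ), HasDerivAt (primitive p) (p s / 2) s := by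
    intro s hs
    have hsub : uIcc 0 s ⊆ Ioi (-δ) :=
      (ordConnected_Ioi).uIcc_subset (show -δ < 0 by linarith) hs
    exact intervalIntegral.integral_hasDerivAt_right (hc.mono hsub).intervalIntegrable
      (hc.stronglyMeasurableAtFilter isOpen_Ioi s hs) (hc.continuousAt (Ioi_mem_nhds hs))
  refine ⟨hd, (contDiffOn_infty_iff_deriv_of_isOpen isOpen_Ioi).2
    ⟨fun s hs => (hd s hs).differentiableAt.differentiableWithinAt, ?_⟩⟩
  exact (hp.div_const 2).congr fun s hs => (hd s hs).deriv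

lemma graphU_contDiff {k : ℕ} {φ : ℝ → ℝ} {δ : ℝ} (hδ : 0 < δ)
    (hφ : ContDiffOn ℝ ∞ φ (Ioi (-δ))) :
    ContDiff ℝ ∞ (graphU φ : EuclideanSpace ℝ (Fin (k + 1)) → ℝ) := by
  have h1 : ContDiff ℝ ∞ (radSq : EuclideanSpace ℝ (Fin (k + 1)) → ℝ) :=
    (contDiff_norm_sq ℝ).sub ((lastC k).contDiff.pow 2)
  have h2 : ContDiff ℝ ∞ fun y : EuclideanSpace ℝ (Fin (k + 1)) => φ (radSq y) :=
    contDiffOn_univ.1 (hφ.comp h1.contDiffOn fun y _ =>
      show -δ < radSq y by linarith [radSq_nonneg y])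
  exact (((contDiff_const.mul h2).exp).add ((lastC k).contDiff.pow 2)).sqrt fun y => by positivity

theorem exists_entire (k : ℕ) (hk : 9 ≤ k) :
    ∃ u : EuclideanSpace ℝ (Fin (k + 1)) → ℝ, ContDiff ℝ ∞ u ∧
      (∀ x, (hess u x).PosDef) ∧ (∀ x, affineMaximal u x = 0) ∧
      ¬∃ (A : Matrix (Fin (k + 1)) (Fin (k + 1)) ℝ) (b : Fin (k + 1) → ℝ) (c : ℝ),
        ∀ x, u x = (∑ i, ∑ j, A i j * x i * x j) / 2 + (∑ i, b i * x i) + c := by
  obtain ⟨Rs, M, hb⟩ := exists_box k hk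
  obtain ⟨δ, hδ, p, r, v, hp0, cp, cr, cv, hode, hpos⟩ := exists_profile hb
  obtain ⟨hφd, hφs⟩ := primitive_smooth hδ cp
  have hmem : ∀ s, 0 ≤ s → s ∈ Ioi (-δ) := fun s hs => show -δ < s by linarith
  have h : IsProfile (primitive p) p r v k :=
    { φd := fun s hs => hφd s (hmem s hs)
      pd' := fun s hs => (hode s (hmem s hs)).1
      rd := fun s hs => (cr.differentiableOn (by simp)).differentiableAt (Ioi_mem_nhds (hmem s hs))
      vd := fun s hs => (cv.differentiableOn (by simp)).differentiableAt (Ioi_mem_nhds (hmem s hs))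
      req := fun s hs => (hode s (hmem s hs)).2.1
      veq := fun s hs => (hode s (hmem s hs)).2.2
      pos := hpos }
  refine ⟨graphU (primitive p), graphU_contDiff hδ hφs, posDef_graphU h,
    affineMaximal_graphU h (by omega), ?_⟩
  rintro ⟨A, b, c, hq⟩
  have hval : ∀ t : ℝ, Real.sqrt (1 + t ^ 2)
      = A (Fin.last k) (Fin.last k) * t ^ 2 / 2 + b (Fin.last k) * t + c := by
    intro t
    have e := hq (EuclideanSpace.single (Fin.last k) t)
    have hl : lastC k (EuclideanSpace.single (Fin.last k) t) = t := by simp [lastC_apply]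
    have hs : radSq (EuclideanSpace.single (Fin.last k) t) = 0 := by
      simp [radSq, hl]
    have hφ0 : primitive p 0 = 0 := by simp [primitive]
    simp only [graphU, hs, hl, hφ0, mul_zero, Real.exp_zero] at e
    rw [e]
    simp
    ring
  have h0 := hval 0
  have h1 := hval 1
  have h2 := hval (-1)
  have h3 := hval 2
  have h4 := hval (-2)
  norm_num at h0 h1 h2 h3 h4
  have s2 := Real.sq_sqrt (show (0 : ℝ) ≤ 2 by norm_num)
  have s5 := Real.sq_sqrt (show (0 : ℝ) ≤ 5 by norm_num)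
  have e : Real.sqrt 5 = 4 * Real.sqrt 2 - 3 := by linarith
  rw [e] at s5
  have e2 : Real.sqrt 2 = 3 / 2 := by linarith
  rw [e2] at s2
  norm_num at s2

end Vale.Agent.P252
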